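import Mathlib

/-! # S0504 F1: pure asymptotics -/

set_option autoImplicit false

namespace Crest.Agent.D5

private theorem fi_case_B {L r ls δ : ℝ} (hL : 1000 ≤ L) (hr : 1000 ≤ r)
    (hδ : r / 8 - 1 ≤ δ) (h : 0 ≤ 3 + L / 2 + 2 + 6 * r + ls - (L * δ / 4 - 4 * r)) :
    r * L / 400 ≤ ls := by
  have h1 : L * (r / 8 - 1) ≤ L * δ := mul_le_mul_of_nonneg_left hδ (by linarith)
  have h2 : 1000 * r ≤ L * r := mul_le_mul_of_nonneg_right hL (by linarith)
  have h3 : L * 1000 ≤ L * r := mul_le_mul_of_nonneg_left hr (by linarith)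
  nlinarith

private theorem fi_case_A {L r ls q l2 : ℝ} (hL : 1000 ≤ L) (hr : 1000 ≤ r) (hq : r - 1 ≤ q)
    (hl : l2 ≤ 1) (h : 0 ≤ 3 + L / 2 + 2 + 6 * r + (ls + (ls + q * (l2 + -(1 / 5) * L) + 4 * r))) :
    r * L / 400 ≤ ls := by
  have h1 : (r - 1) * (L / 5 - 1) ≤ q * (L / 5 - l2) := by
    apply mul_le_mul hq (by linarith) (by linarith) (by linarith)
  have h2 : 1000 * r ≤ L * r := mul_le_mul_of_nonneg_right hL (by linarith)
  have h3 : L * 1000 ≤ L * r := mul_le_mul_of_nonneg_left hr (by linarith)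
  nlinarith

theorem final_ineq : ∃ n₁ : ℕ, ∀ n ≥ n₁, ∀ s : ℝ, 1 ≤ s → ∀ δ : ℕ, Nat.sqrt n / 8 ≤ δ →
    1 ≤ (12 * Real.sqrt n * Real.exp (2 + 6 * Real.sqrt n)) *
      (s * max (s * (2 * (n : ℝ) ^ (-(1 / 5 : ℝ))) ^ (Nat.sqrt n) * Real.exp (4 / Real.sqrt n * n))
        (Real.exp (-((Real.log n * δ / (4 * n) - 4 / Real.sqrt n) * n)))) →
    (n : ℝ) ^ (Real.sqrt n / 400) ≤ s := by
  obtain ⟨n1, hn1'⟩ := exists_nat_ge (Real.exp 1000)
  refine ⟨n1 + 1000000, fun n hn s hs δ hδ h => ?_⟩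
  have hn1 : Real.exp 1000 ≤ (n : ℝ) := by
    refine hn1'.trans ?_
    exact Nat.cast_le.mpr (le_trans (Nat.le_add_right _ _) hn)
  have hn2 : (1000000 : ℝ) ≤ (n : ℝ) := by
    have h1 : 1000000 ≤ n := le_trans (Nat.le_add_left _ _) hn
    have h2 : ((1000000 : ℕ) : ℝ) ≤ (n : ℝ) := Nat.cast_le.mpr h1
    have h3 : ((1000000 : ℕ) : ℝ) = 1000000 := by norm_num
    rw [← h3]
    exact h2
  have hn0 : (0 : ℝ) < n := by linarith
  have hL : 1000 ≤ Real.log n := (Real.le_log_iff_exp_le hn0).mpr hn1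
  have hr : 1000 ≤ Real.sqrt n := by
    apply Real.le_sqrt_of_sq_le
    norm_num
    linarith
  set r := Real.sqrt n with hrdef
  set L := Real.log n with hLdef
  have hr0 : 0 < r := by linarith
  have hrr : r * r = n := Real.mul_self_sqrt hn0.le
  have hs0 : 0 < s := by linarith
  -- the exponents
  have e1 : 4 / r * n = 4 * r := by
    rw [← hrr]; field_simp
  have e2 : (L * δ / (4 * n) - 4 / r) * n = L * δ / 4 - 4 * r := by
    rw [sub_mul, e1]
    congr 1
    field_simp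
  rw [e1, e2] at h
  -- Nat.sqrt
  have hq : r - 1 ≤ (Nat.sqrt n : ℝ) := by
    have := Real.real_sqrt_lt_nat_sqrt_succ (a := n)
    rw [← hrdef] at this
    linarith
  have hδ' : r / 8 - 1 ≤ (δ : ℝ) := by
    have h1 : Nat.sqrt n ≤ 8 * δ + 7 := by omega
    have h2 : (Nat.sqrt n : ℝ) ≤ 8 * δ + 7 := by exact_mod_cast h1
    linarith
  -- logs
  have hlogr : Real.log r = L / 2 := by
    have : Real.log (r * r) = Real.log n := by rw [hrr]
    rw [Real.log_mul hr0.ne' hr0.ne'] at this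
    linarith
  have hlog12 : Real.log 12 ≤ 3 := by
    rw [Real.log_le_iff_le_exp (by norm_num)]
    have h1 : (2.7 : ℝ) ≤ Real.exp 1 := by
      have := Real.exp_one_gt_d9
      linarith
    have h2 : Real.exp 3 = Real.exp 1 ^ 3 := by
      rw [← Real.exp_nat_mul]; norm_num
    rw [h2]
    have h3 : (2.7 : ℝ) ^ 3 ≤ Real.exp 1 ^ 3 := pow_le_pow_left₀ (by norm_num) h1 3
    linarith [show (12 : ℝ) ≤ (2.7 : ℝ) ^ 3 by norm_num]
  have hlog2 : Real.log 2 ≤ 1 := by
    rw [Real.log_le_iff_le_exp (by norm_num)]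
    have := Real.exp_one_gt_d9
    linarith
  have hC0 : 0 < 12 * r * Real.exp (2 + 6 * r) := by positivity
  have hlogC : Real.log (12 * r * Real.exp (2 + 6 * r)) = Real.log 12 + L / 2 + (2 + 6 * r) := by
    rw [Real.log_mul (by positivity) (Real.exp_pos _).ne', Real.log_mul (by norm_num) hr0.ne',
      Real.log_exp, hlogr]
  -- goal
  have goal : r * L / 400 ≤ Real.log s → (n : ℝ) ^ (r / 400) ≤ s := by
    intro hg
    rw [Real.rpow_def_of_pos hn0, ← Real.le_log_iff_exp_le hs0]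
    calc Real.log n * (r / 400) = r * L / 400 := by rw [← hLdef]; ring
      _ ≤ Real.log s := hg
  apply goal
  have hx0 : 0 < 2 * (n : ℝ) ^ (-(1 / 5 : ℝ)) := by positivity
  rcases le_total (s * (2 * (n : ℝ) ^ (-(1 / 5 : ℝ))) ^ (Nat.sqrt n) * Real.exp (4 * r))
    (Real.exp (-(L * δ / 4 - 4 * r))) with hmax | hmax
  · rw [max_eq_right hmax] at h
    have h' := Real.log_le_log one_pos h
    have hA : Real.log (s * Real.exp (-(L * δ / 4 - 4 * r))) = Real.log s + -(L * δ / 4 - 4 * r) := by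
      rw [Real.log_mul hs0.ne' (Real.exp_pos _).ne', Real.log_exp]
    have hB : s * Real.exp (-(L * δ / 4 - 4 * r)) ≠ 0 := by positivity
    rw [Real.log_one, Real.log_mul hC0.ne' hB, hlogC, hA] at h'
    refine fi_case_B hL hr hδ' ?_
    linarith
  · rw [max_eq_left hmax] at h
    have h' := Real.log_le_log one_pos h
    have hx1 : 0 < (2 * (n : ℝ) ^ (-(1 / 5 : ℝ))) ^ (Nat.sqrt n) := pow_pos hx0 _
    have hA : Real.log (s * (s * (2 * (n : ℝ) ^ (-(1 / 5 : ℝ))) ^ (Nat.sqrt n) * Real.exp (4 * r)))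
        = Real.log s + (Real.log s + (Nat.sqrt n : ℝ) * (Real.log 2 + -(1 / 5) * L) + 4 * r) := by
      rw [Real.log_mul hs0.ne' (by positivity), Real.log_mul (by positivity) (Real.exp_pos _).ne',
        Real.log_mul hs0.ne' hx1.ne', Real.log_exp, Real.log_pow,
        Real.log_mul two_ne_zero (by positivity), Real.log_rpow hn0]
    have hB : s * (s * (2 * (n : ℝ) ^ (-(1 / 5 : ℝ))) ^ (Nat.sqrt n) * Real.exp (4 * r)) ≠ 0 := by
      positivity
    rw [Real.log_one, Real.log_mul hC0.ne' hB, hlogC, hA] at h'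
    refine fi_case_A hL hr hq hlog2 ?_
    linarith

end Crest.Agent.D5
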