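import Mathlib
import Crest.Prelude.Def_SPSPS

/-! # S0504: definitions (homogeneous depth-five lower bound).  See guide 504. -/

set_option autoImplicit false

namespace Crest.Agent.D5

open MvPolynomial Finset

noncomputable section

section Sector

variable {ι : Type*} [Fintype ι] [DecidableEq ι]

/-- degree of a monomial on a set of variables -/
def dg (Y : Finset ι) (m : ι →₀ ℕ) : ℕ := ∑ i ∈ Y, m i

/-- monomials of degree `p` on `Y` and degree `l` on `Yᶜ` -/
def Sec (Y : Finset ι) (p l : ℕ) : Finset (ι →₀ ℕ) :=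
  (Finset.finsuppAntidiag Finset.univ (p + l)).filter (fun m => dg Y m = p)

theorem mem_Sec {Y : Finset ι} {p l : ℕ} {m : ι →₀ ℕ} :
    m ∈ Sec Y p l ↔ dg Y m = p ∧ dg Yᶜ m = l := by
  have h : ∑ i, m i = dg Y m + dg Yᶜ m := by
    unfold dg; rw [Finset.sum_add_sum_compl]
  unfold Sec
  simp only [Finset.mem_filter, Finset.mem_finsuppAntidiag, Finset.subset_univ, and_true]
  rw [h]
  constructor
  · rintro ⟨h1, h2⟩; exact ⟨h2, by omega⟩
  · rintro ⟨h1, h2⟩; exact ⟨by omega, h1⟩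

/-- `m'` can be reached from `m`: `Y` goes down, the complement goes up -/
def Ok (Y : Finset ι) (m m' : ι →₀ ℕ) : Prop := ∀ i, if i ∈ Y then m' i ≤ m i else m i ≤ m' i

/-- the difference monomial -/
def dif (Y : Finset ι) (m m' : ι →₀ ℕ) : ι →₀ ℕ :=
  Finsupp.equivFunOnFinite.symm (fun i => if i ∈ Y then m i - m' i else m' i - m i)

open Classical in
/-- the matrix of `f`: rows `Sec Y p' l'`, columns `Sec Y p l` -/
def Mt {K : Type*} [CommSemiring K] (Y : Finset ι) (f : MvPolynomial ι K) (p l p' l' : ℕ) :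
    Matrix (Sec Y p' l') (Sec Y p l) K :=
  Matrix.of fun m' m => if Ok Y m.1 m'.1 then coeff (dif Y m.1 m'.1) f else 0

/-- bihomogeneous of bidegree `(a, b)` -/
def BiHom {K : Type*} [CommSemiring K] (Y : Finset ι) (f : MvPolynomial ι K) (a b : ℕ) : Prop :=
  ∀ t, coeff t f ≠ 0 → dg Y t = a ∧ dg Yᶜ t = b

/-- cost of a polynomial: `f = ∑ G * H`, `G` bihomogeneous `(a', b')`, `H` bihomogeneous `(a, b)`,
weight `exp (((wy a' - wz b') - (wy a - wz b)) / 2)` -/
inductive Cost {K : Type*} [CommSemiring K] (Y : Finset ι) (wy wz : ℝ) : MvPolynomial ι K → ℝ → Prop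
  | zero {c : ℝ} (hc : 0 ≤ c) : Cost Y wy wz 0 c
  | add {f G H : MvPolynomial ι K} {c : ℝ} {a' b' a b : ℕ} (hG : BiHom Y G a' b')
      (hH : BiHom Y H a b) (hf : Cost Y wy wz f c) :
      Cost Y wy wz (G * H + f) (Real.exp (((wy * a' - wz * b') - (wy * a - wz * b)) / 2) + c)

end Sector

/-- `S(e) = ∑_{κ ≤ e} exp (-|wy κ - wz (e - κ)| / 2)` -/
def SS (wy wz : ℝ) (e : ℕ) : ℝ :=
  ∑ κ ∈ Finset.range (e + 1), Real.exp (-|wy * κ - wz * ((e : ℝ) - κ)| / 2)

/-- number of `Y` positions among the first `i` : the rounding of `i k / n` -/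
def rnd (n k i : ℕ) : ℕ := (2 * i * k + n) / (2 * n)

/-- position `j` is a `Y` position -/
def isY (n k j : ℕ) : Prop := rnd n k j ≠ rnd n k (j + 1)

instance (n k j : ℕ) : Decidable (isY n k j) := inferInstanceAs (Decidable (_ ≠ _))

/-- the set of `Y` variables -/
def YV (n k : ℕ) : Finset (Fin n × Fin n × Fin n) := Finset.univ.filter (fun v => isY n k v.1)

/-- the monomial of a path `a` (vertex sequence); for all matrix orders `n` and lengths `N` -/
def pmon {n : ℕ} (a : Fin (n + 1) → Fin n) : (Fin n × Fin n × Fin n) →₀ ℕ :=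
  ∑ j : Fin n, Finsupp.single (j, a j.castSucc, a j.succ) 1

/-- paths from vertex `0` to vertex `0` -/
def Pth (N : ℕ) : Finset (Fin (N + 2) → Fin (N + 1)) :=
  Finset.univ.filter (fun a => a 0 = 0 ∧ a (Fin.last (N + 1)) = 0)

/-- `#Y` and `#Z` variables -/
def NY (n k : ℕ) : ℕ := k * n ^ 2
def NZ (n k : ℕ) : ℕ := (n - k) * n ^ 2

/-- the weight ratios on the lower-bound side -/
def rhoY (n k p : ℕ) : ℝ := ((NY n k + p - 2 * k : ℕ) : ℝ) / ((p - 2 * k + 1 : ℕ) : ℝ)
def rhoZ (n k l : ℕ) : ℝ := (l : ℝ) / ((NZ n k + l - 1 : ℕ) : ℝ)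

/-- position weight of a quadruple of edges (each edge is a pair of vertices):
`(e1, e3)` and `(e2, e4)` must agree as multisets -/
def Wt {n : ℕ} (yy : Prop) [Decidable yy] (ry rz : ℝ) (e1 e2 e3 e4 : Fin n × Fin n) : ℝ :=
  if (e1 = e2 ∧ e3 = e4) ∨ (e1 = e4 ∧ e3 = e2) then
    (if yy then (if e1 = e4 then ry else 1) else (if e1 = e2 then 1 else rz))
  else 0

/-- the sum over quadruples of paths -/
def Zsum (N k : ℕ) (ry rz : ℝ) : ℝ :=
  ∑ a ∈ Pth N, ∑ b ∈ Pth N, ∑ c ∈ Pth N, ∑ d ∈ Pth N,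
    ∏ j : Fin (N + 1), Wt (isY (N + 1) k j) ry rz
      (a j.castSucc, a j.succ) (b j.castSucc, b j.succ) (c j.castSucc, c j.succ)
      (d j.castSucc, d j.succ)

end

end Crest.Agent.D5
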