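import Mathlib
import Crest.Agent.S504.Defs

/-! # S0504, module U2: counting the sectors, multichoose ratios. -/

set_option autoImplicit false

namespace Crest.Agent.D5

open MvPolynomial Finset

noncomputable section

section U2
variable {ι : Type*} [Fintype ι] [DecidableEq ι]

omit [Fintype ι] [DecidableEq ι] in
theorem U2_dg_add (Y : Finset ι) (a b : ι →₀ ℕ) : dg Y (a + b) = dg Y a + dg Y b := by
  simp [dg, Finset.sum_add_distrib]

omit [Fintype ι] [DecidableEq ι] in
theorem U2_dg_mono (Y : Finset ι) {a b : ι →₀ ℕ} (h : a ≤ b) : dg Y a ≤ dg Y b :=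
  Finset.sum_le_sum (fun i _ => h i)

theorem card_Sec (Y : Finset ι) (p l : ℕ) :
    (Sec Y p l).card = Nat.multichoose Y.card p * Nat.multichoose Yᶜ.card l := by
  rw [← Finset.card_finsuppAntidiag_nat_eq_multichoose (s := Y) p,
    ← Finset.card_finsuppAntidiag_nat_eq_multichoose (s := Yᶜ) l, ← Finset.card_product]
  refine Finset.card_nbij' (fun m => (m.filter (· ∈ Y), m.filter (· ∉ Y)))
    (fun ab => ab.1 + ab.2) ?_ ?_ ?_ ?_
  · intro m hm
    rw [Finset.mem_coe, mem_Sec] at hm
    obtain ⟨h1, h2⟩ := hm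
    simp only [Finset.coe_product, Set.mem_prod, Finset.mem_coe, Finset.mem_finsuppAntidiag]
    refine ⟨⟨?_, ?_⟩, ⟨?_, ?_⟩⟩
    · rw [← h1]
      unfold dg
      refine Finset.sum_congr rfl (fun i hi => ?_)
      rw [Finsupp.filter_apply, if_pos hi]
    · intro i hi
      rw [Finsupp.support_filter, Finset.mem_filter] at hi
      exact hi.2
    · rw [← h2]
      unfold dg
      refine Finset.sum_congr rfl (fun i hi => ?_)
      rw [Finsupp.filter_apply, if_pos (Finset.mem_compl.mp hi)]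
    · intro i hi
      rw [Finsupp.support_filter, Finset.mem_filter] at hi
      exact Finset.mem_compl.mpr hi.2
  · rintro ⟨a, b⟩ hab
    simp only [Finset.coe_product, Set.mem_prod, Finset.mem_coe, Finset.mem_finsuppAntidiag] at hab
    obtain ⟨⟨ha1, ha2⟩, ⟨hb1, hb2⟩⟩ := hab
    rw [Finset.mem_coe, mem_Sec]
    have ea : ∀ i ∉ Y, a i = 0 := fun i hi => by
      by_contra h
      exact hi (ha2 (Finsupp.mem_support_iff.mpr h))
    have eb : ∀ i ∈ Y, b i = 0 := fun i hi => by
      by_contra h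
      exact (Finset.mem_compl.mp (hb2 (Finsupp.mem_support_iff.mpr h))) hi
    constructor
    · rw [U2_dg_add]
      have : dg Y b = 0 := Finset.sum_eq_zero eb
      rw [this, add_zero]
      exact ha1
    · rw [U2_dg_add]
      have : dg Yᶜ a = 0 := Finset.sum_eq_zero (fun i hi => ea i (Finset.mem_compl.mp hi))
      rw [this, zero_add]
      exact hb1
  · intro m _
    simp only
    exact Finsupp.filter_add_filter_not m _
  · rintro ⟨a, b⟩ hab
    simp only [Finset.coe_product, Set.mem_prod, Finset.mem_coe, Finset.mem_finsuppAntidiag] at hab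
    obtain ⟨⟨ha1, ha2⟩, ⟨hb1, hb2⟩⟩ := hab
    have ea : ∀ i ∉ Y, a i = 0 := fun i hi => by
      by_contra h
      exact hi (ha2 (Finsupp.mem_support_iff.mpr h))
    have eb : ∀ i ∈ Y, b i = 0 := fun i hi => by
      by_contra h
      exact (Finset.mem_compl.mp (hb2 (Finsupp.mem_support_iff.mpr h))) hi
    simp only [Prod.mk.injEq]
    constructor
    · ext i
      rw [Finsupp.filter_apply]
      split_ifs with h
      · simp [eb i h]
      · exact (ea i h).symm
    · ext i
      rw [Finsupp.filter_apply]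
      split_ifs with h
      · exact (eb i h).symm
      · simp [ea i h]

theorem card_Sec_filter (Y : Finset ι) (p l : ℕ) (a : ι →₀ ℕ) (ha : dg Y a ≤ p) (hb : dg Yᶜ a ≤ l) :
    ((Sec Y p l).filter (fun m => a ≤ m)).card
      = Nat.multichoose Y.card (p - dg Y a) * Nat.multichoose Yᶜ.card (l - dg Yᶜ a) := by
  rw [← card_Sec]
  refine Finset.card_nbij' (fun m => m - a) (fun m => m + a) ?_ ?_ ?_ ?_
  · intro m hm
    rw [Finset.mem_coe, Finset.mem_filter, mem_Sec] at hm
    obtain ⟨⟨h1, h2⟩, h3⟩ := hm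
    rw [Finset.mem_coe, mem_Sec]
    have e : m = (m - a) + a := (tsub_add_cancel_of_le h3).symm
    have e1 : dg Y m = dg Y (m - a) + dg Y a := by
      conv_lhs => rw [e]
      rw [U2_dg_add]
    have e2 : dg Yᶜ m = dg Yᶜ (m - a) + dg Yᶜ a := by
      conv_lhs => rw [e]
      rw [U2_dg_add]
    constructor
    · show dg Y (m - a) = _
      omega
    · show dg Yᶜ (m - a) = _
      omega
  · intro m hm
    rw [Finset.mem_coe, mem_Sec] at hm
    rw [Finset.mem_coe, Finset.mem_filter, mem_Sec, U2_dg_add, U2_dg_add]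
    refine ⟨⟨by omega, by omega⟩, le_add_self⟩
  · intro m hm
    rw [Finset.mem_coe, Finset.mem_filter] at hm
    exact tsub_add_cancel_of_le hm.2
  · intro m _
    exact add_tsub_cancel_right m a

theorem card_Sec_filter_le (Y : Finset ι) (p l : ℕ) (a : ι →₀ ℕ) :
    ((Sec Y p l).filter (fun m => a ≤ m)).card
      ≤ Nat.multichoose Y.card (p - dg Y a) * Nat.multichoose Yᶜ.card (l - dg Yᶜ a) := by
  by_cases h : dg Y a ≤ p ∧ dg Yᶜ a ≤ l
  · exact (card_Sec_filter Y p l a h.1 h.2).le
  · have : (Sec Y p l).filter (fun m => a ≤ m) = ∅ := by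
      rw [Finset.filter_eq_empty_iff]
      intro m hm hle
      rw [mem_Sec] at hm
      have h1 := U2_dg_mono Y hle
      have h2 := U2_dg_mono Yᶜ hle
      exact h ⟨by omega, by omega⟩
    rw [this, Finset.card_empty]
    exact Nat.zero_le _

/-- `mc(N, t+1) (t+1) = mc(N,t) (N+t)` -/
theorem mc_succ (N t : ℕ) (hN : 1 ≤ N) :
    Nat.multichoose N (t + 1) * (t + 1) = Nat.multichoose N t * (N + t) := by
  rw [Nat.multichoose_eq, Nat.multichoose_eq]
  obtain ⟨M, rfl⟩ : ∃ M, N = M + 1 := ⟨N - 1, by omega⟩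
  have e1 : M + 1 + (t + 1) - 1 = (M + t) + 1 := by omega
  have e2 : M + 1 + t - 1 = M + t := by omega
  rw [e1, e2]
  have := Nat.add_one_mul_choose_eq (M + t) t
  rw [← this]
  ring

theorem mc_pos (N t : ℕ) (hN : 1 ≤ N) : 0 < Nat.multichoose N t := by
  rw [Nat.multichoose_eq]
  exact Nat.choose_pos (by omega)

/-- one step, as a real identity -/
theorem mc_succ_real (N t : ℕ) (hN : 1 ≤ N) :
    (Nat.multichoose N (t + 1) : ℝ) * (t + 1) = Nat.multichoose N t * (N + t) := by
  have := mc_succ N t hN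
  exact_mod_cast this

/-- going down `a` steps: `mc(N, p-a) ≤ E^{-a} mc(N,p)` when `E p ≤ N + p - 1` -/
theorem mc_down (N p : ℕ) (hN : 1 ≤ N) (E : ℝ) (hE : 1 ≤ E) (h : E * p ≤ N + p - 1) (a : ℕ) (ha : a ≤ p) :
    (Nat.multichoose N (p - a) : ℝ) * E ^ a ≤ Nat.multichoose N p := by
  induction a with
  | zero => simp
  | succ a ih =>
    refine le_trans ?_ (ih (by omega))
    obtain ⟨t, ht⟩ : ∃ t, p - a = t + 1 := ⟨p - a - 1, by omega⟩
    have e1 : p - (a + 1) = t := by omega
    rw [ht, e1, pow_succ]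
    have hs := mc_succ_real N t hN
    have hp : (p : ℝ) = t + 1 + a := by
      have : p = t + 1 + a := by omega
      exact_mod_cast this
    have hEt : E * (t + 1) ≤ N + t := by
      rw [hp] at h
      have ha0 : (0 : ℝ) ≤ a := Nat.cast_nonneg a
      nlinarith [mul_nonneg (sub_nonneg.mpr hE) ha0]
    have hM : (0 : ℝ) ≤ Nat.multichoose N t := Nat.cast_nonneg _
    have ht1 : (0 : ℝ) < t + 1 := by positivity
    have key : (Nat.multichoose N t : ℝ) * E ≤ Nat.multichoose N (t + 1) := by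
      refine le_of_mul_le_mul_right ?_ ht1
      rw [hs, mul_assoc]
      exact mul_le_mul_of_nonneg_left hEt hM
    have hEa : (0 : ℝ) ≤ E ^ a := by positivity
    calc (Nat.multichoose N t : ℝ) * (E ^ a * E) = (Nat.multichoose N t * E) * E ^ a := by ring
      _ ≤ Nat.multichoose N (t + 1) * E ^ a := mul_le_mul_of_nonneg_right key hEa

/-- going up `b` steps: `mc(N, l+b) ≤ F^b mc(N,l)` when `N + l ≤ F (l+1)` -/
theorem mc_up (N l : ℕ) (hN : 1 ≤ N) (F : ℝ) (h : (N : ℝ) + l ≤ F * (l + 1)) (b : ℕ) :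
    (Nat.multichoose N (l + b) : ℝ) ≤ F ^ b * Nat.multichoose N l := by
  have hN' : (1 : ℝ) ≤ N := by exact_mod_cast hN
  have hl1 : (0 : ℝ) < (l : ℝ) + 1 := by positivity
  have hF : 1 ≤ F := by
    refine le_of_mul_le_mul_right ?_ hl1
    linarith
  induction b with
  | zero => simp
  | succ b ih =>
    have hs := mc_succ_real N (l + b) hN
    push_cast at hs
    have hb0 : (0 : ℝ) ≤ b := Nat.cast_nonneg b
    have hFt : (N : ℝ) + (l + b) ≤ F * (l + b + 1) := by
      nlinarith [mul_nonneg (sub_nonneg.mpr hF) hb0]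
    have hM : (0 : ℝ) ≤ Nat.multichoose N (l + b) := Nat.cast_nonneg _
    have ht1 : (0 : ℝ) < (l : ℝ) + b + 1 := by positivity
    have key : (Nat.multichoose N (l + b + 1) : ℝ) ≤ F * Nat.multichoose N (l + b) := by
      refine le_of_mul_le_mul_right ?_ ht1
      rw [hs]
      calc (Nat.multichoose N (l + b) : ℝ) * (N + (l + b))
          ≤ Nat.multichoose N (l + b) * (F * (l + b + 1)) := mul_le_mul_of_nonneg_left hFt hM
        _ = F * Nat.multichoose N (l + b) * (l + b + 1) := by ring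
    calc (Nat.multichoose N (l + (b + 1)) : ℝ) = Nat.multichoose N (l + b + 1) := by rw [add_assoc]
      _ ≤ F * Nat.multichoose N (l + b) := key
      _ ≤ F * (F ^ b * Nat.multichoose N l) :=
          mul_le_mul_of_nonneg_left ih (by linarith)
      _ = F ^ (b + 1) * Nat.multichoose N l := by rw [pow_succ]; ring

/-- `mc(N, t+H) ≤ ((N+t)/(t+1))^H mc(N,t)` -/
theorem mc_up' (N t H : ℕ) (hN : 1 ≤ N) :
    (Nat.multichoose N (t + H) : ℝ) ≤ (((N + t : ℕ) : ℝ) / ((t + 1 : ℕ) : ℝ)) ^ H * Nat.multichoose N t := by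
  refine mc_up N t hN _ ?_ H
  push_cast
  have ht1 : (0 : ℝ) < (t : ℝ) + 1 := by positivity
  rw [div_mul_cancel₀ _ ht1.ne']

/-- `mc(N, l-h) ≤ (l/(N+l-1))^h mc(N,l)`  (`h ≤ l`) -/
theorem mc_down' (N l h : ℕ) (hN : 1 ≤ N) (hl : 1 ≤ l) (hh : h ≤ l) :
    (Nat.multichoose N (l - h) : ℝ) ≤ ((l : ℝ) / ((N + l - 1 : ℕ) : ℝ)) ^ h * Nat.multichoose N l := by
  have hl0 : (0 : ℝ) < l := by exact_mod_cast hl
  have hc : ((N + l - 1 : ℕ) : ℝ) = (N : ℝ) + l - 1 := by
    rw [Nat.cast_sub (by omega)]; push_cast; ring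
  have hN' : (1 : ℝ) ≤ N := by exact_mod_cast hN
  have hpos : (0 : ℝ) < (N : ℝ) + l - 1 := by linarith
  have hE : (1 : ℝ) ≤ ((N : ℝ) + l - 1) / l := by
    rw [le_div_iff₀ hl0]; linarith
  have := mc_down N l hN (((N : ℝ) + l - 1) / l) hE (by rw [div_mul_cancel₀ _ hl0.ne']) h hh
  rw [hc]
  have hinv : ((l : ℝ) / ((N : ℝ) + l - 1)) = (((N : ℝ) + l - 1) / l)⁻¹ := by
    rw [inv_div]
  rw [hinv, inv_pow]
  have hEp : (0 : ℝ) < (((N : ℝ) + l - 1) / l) ^ h := by positivity
  rw [← div_eq_inv_mul, le_div_iff₀ hEp]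
  exact this

theorem mc_lc_aux (N : ℕ) (hN : 1 ≤ N) (t k s : ℕ) :
    Nat.multichoose N t * Nat.multichoose N (t + k + s)
      ≤ Nat.multichoose N (t + k) * Nat.multichoose N (t + s) := by
  induction s with
  | zero => simp [Nat.mul_comm]
  | succ s ih =>
    have h1 := mc_succ N (t + k + s) hN
    have h2 := mc_succ N (t + s) hN
    have hp : 0 < (t + k + s + 1) * (t + s + 1) := by positivity
    refine Nat.le_of_mul_le_mul_right ?_ hp
    have e1 : t + k + (s + 1) = t + k + s + 1 := by ring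
    have e2 : t + (s + 1) = t + s + 1 := by ring
    rw [e1, e2]
    have hr : (N + (t + k + s)) * (t + s + 1) ≤ (N + (t + s)) * (t + k + s + 1) := by
      obtain ⟨M, rfl⟩ : ∃ M, N = M + 1 := ⟨N - 1, by omega⟩
      have : (M + 1 + (t + s)) * (t + k + s + 1)
          = (M + 1 + (t + k + s)) * (t + s + 1) + M * k := by ring
      omega
    calc Nat.multichoose N t * Nat.multichoose N (t + k + s + 1) * ((t + k + s + 1) * (t + s + 1))
        = Nat.multichoose N t * (Nat.multichoose N (t + k + s + 1) * (t + k + s + 1)) * (t + s + 1) := by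
          ring
      _ = (Nat.multichoose N t * Nat.multichoose N (t + k + s))
            * ((N + (t + k + s)) * (t + s + 1)) := by rw [h1]; ring
      _ ≤ (Nat.multichoose N (t + k) * Nat.multichoose N (t + s))
            * ((N + (t + s)) * (t + k + s + 1)) := Nat.mul_le_mul ih hr
      _ = Nat.multichoose N (t + k) * (Nat.multichoose N (t + s) * (N + (t + s)))
            * (t + k + s + 1) := by ring
      _ = Nat.multichoose N (t + k) * (Nat.multichoose N (t + s + 1) * (t + s + 1))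
            * (t + k + s + 1) := by rw [h2]
      _ = Nat.multichoose N (t + k) * Nat.multichoose N (t + s + 1)
            * ((t + k + s + 1) * (t + s + 1)) := by ring

/-- log-concavity -/
theorem mc_logconcave (N p k : ℕ) (hN : 1 ≤ N) (h : 2 * k ≤ p) :
    Nat.multichoose N (p - 2 * k) * Nat.multichoose N p ≤ Nat.multichoose N (p - k) ^ 2 := by
  obtain ⟨t, rfl⟩ : ∃ t, p = t + k + k := ⟨p - 2 * k, by omega⟩
  have e1 : t + k + k - 2 * k = t := by omega
  have e2 : t + k + k - k = t + k := by omega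
  rw [e1, e2, pow_two]
  exact mc_lc_aux N hN t k k

end U2

end

end Crest.Agent.D5
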