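import Mathlib
import Crest.Agent.S504.Defs

/-! # S0504: the path matrix PM (shared by Tr1, Tr2, LowerRank) -/

set_option autoImplicit false

namespace Crest.Agent.D5

open MvPolynomial Finset

noncomputable section

open Classical in
/-- the path matrix: `PM (m', m) = #{a : path, m -> m'}` -/
def PM (N k p l p' l' : ℕ) :
    Matrix (Sec (YV (N + 1) k) p' l') (Sec (YV (N + 1) k) p l) ℕ :=
  Matrix.of fun m' m => ((Pth N).filter (fun a => Ok (YV (N + 1) k) m.1 m'.1 ∧
    dif (YV (N + 1) k) m.1 m'.1 = pmon a)).card

end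

end Crest.Agent.D5
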