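import Crest.Agent.S504.Defs
import Crest.Agent.S504.Card

/-! # S0504, module L6: the parameters -/

set_option autoImplicit false

namespace Crest.Agent.D5

open MvPolynomial Finset

noncomputable section

def qq (n : ℕ) : ℕ := Nat.sqrt n
def kk (n : ℕ) : ℕ := (n - qq n / 8) / 2
def wY (n : ℕ) : ℝ := Real.log n * (n - kk n) / n
def wZ (n : ℕ) : ℝ := Real.log n * kk n / n
def pp (n : ℕ) : ℕ := ⌊((NY n (kk n) : ℝ) - 1) / (Real.exp (wY n) - 1)⌋₊
def ll (n : ℕ) : ℕ := ⌈((NZ n (kk n) : ℝ) - 1) / (Real.exp (wZ n) - 1)⌉₊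

namespace Prm

/-! ### natural number facts on `kk` -/

theorem q_ge (n : ℕ) (hn : 1000000 ≤ n) : 1000 ≤ qq n := by
  unfold qq
  exact Nat.le_sqrt.2 (by omega)

theorem q_sq (n : ℕ) : qq n * qq n ≤ n := Nat.sqrt_le n

theorem kk_facts (n : ℕ) (hn : 1000000 ≤ n) :
    1 ≤ kk n ∧ 2 * kk n ≤ n ∧ 2 * n ≤ 5 * kk n ∧ n - 2 * kk n ≤ qq n / 8 + 1 ∧
    qq n / 8 ≤ n - 2 * kk n ∧ 4 * (n - 2 * kk n) * qq n ≤ n := by
  have h1 := q_ge n hn
  have h2 := q_sq n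
  have h3 : 1000 * qq n ≤ n := le_trans (Nat.mul_le_mul h1 le_rfl) h2
  have hk : kk n = (n - qq n / 8) / 2 := rfl
  have h4 : 2 * kk n ≤ n - qq n / 8 := by rw [hk]; omega
  have h5 : n - qq n / 8 < 2 * kk n + 2 := by rw [hk]; omega
  have h6 : n - 2 * kk n ≤ qq n / 8 + 1 := by omega
  refine ⟨by omega, by omega, by omega, h6, by omega, ?_⟩
  have h7 : 4 * (n - 2 * kk n) ≤ qq n := by omega
  exact (Nat.mul_le_mul h7 le_rfl).trans h2

/-- round -/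
theorem rnd_le (n k i : ℕ) (hn : 0 < n) (hk : 2 * k ≤ n) : rnd n k i ≤ i := by
  unfold rnd
  have : 2 * i * k + n < 2 * n * (i + 1) := by nlinarith
  have h2 := Nat.div_lt_of_lt_mul this
  omega

theorem rnd_bounds (n k i : ℕ) (hn : 0 < n) :
    |(rnd n k i : ℝ) - (k : ℝ) * i / n| ≤ 1 / 2 := by
  have hn' : (0 : ℝ) < n := by exact_mod_cast hn
  have h1 : rnd n k i * (2 * n) ≤ 2 * i * k + n := Nat.div_mul_le_self _ _
  have h2 : 2 * i * k + n < (rnd n k i + 1) * (2 * n) := by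
    unfold rnd
    exact Nat.lt_mul_of_div_lt (Nat.lt_succ_self _) (by positivity)
  have h3 : (rnd n k i : ℝ) * (2 * n) ≤ 2 * i * k + n := by exact_mod_cast h1
  have h4 : 2 * (i : ℝ) * k + n < ((rnd n k i : ℝ) + 1) * (2 * n) := by exact_mod_cast h2
  rw [abs_le]
  constructor
  · have : (k : ℝ) * i / n ≤ (rnd n k i : ℝ) + 1 / 2 := by
      rw [div_le_iff₀ hn']
      nlinarith
    linarith
  · have : (rnd n k i : ℝ) - 1 / 2 ≤ (k : ℝ) * i / n := by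
      rw [le_div_iff₀ hn']
      nlinarith
    linarith

/-! ### real facts -/

structure Big (n : ℕ) : Prop where
  hn : 1000000 ≤ n

section
variable {n : ℕ}

theorem npos (hn : 1000000 ≤ n) : (0 : ℝ) < n := by
  have : (1000000 : ℝ) ≤ n := by exact_mod_cast hn
  linarith

theorem nbig (hn : 1000000 ≤ n) : (1000000 : ℝ) ≤ n := by exact_mod_cast hn

theorem sq_s : Real.sqrt (n : ℝ) ^ 2 = n := Real.sq_sqrt (Nat.cast_nonneg n)

theorem sbig (hn : 1000000 ≤ n) : (1000 : ℝ) ≤ Real.sqrt n := by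
  have h1 := nbig hn
  rw [show (1000 : ℝ) = Real.sqrt (1000 ^ 2) by rw [Real.sqrt_sq (by norm_num)]]
  exact Real.sqrt_le_sqrt (by norm_num; linarith)

theorem log_le (hn : 1000000 ≤ n) : Real.log n ≤ 2 * Real.sqrt n := by
  have hs := sbig hn
  have h1 : Real.log (n : ℝ) = 2 * Real.log (Real.sqrt n) := by
    conv_lhs => rw [← sq_s (n := n)]
    rw [Real.log_pow]
    push_cast
    rfl
  rw [h1]
  have h2 := Real.log_le_sub_one_of_pos (show 0 < Real.sqrt (n : ℝ) by linarith)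
  linarith

theorem log_pos' (hn : 1000000 ≤ n) : 1 ≤ Real.log n := by
  have h1 := nbig hn
  rw [Real.le_log_iff_exp_le (npos hn)]
  have := Real.exp_one_lt_d9
  linarith

theorem kk_real (hn : 1000000 ≤ n) : 2 * (n : ℝ) ≤ 5 * kk n ∧ 2 * (kk n : ℝ) ≤ n ∧
    (n : ℝ) - 2 * kk n ≤ Real.sqrt n / 4 ∧ 1 ≤ (kk n : ℝ) := by
  obtain ⟨h1, h2, h3, h4, h5, h6⟩ := kk_facts n hn
  refine ⟨by exact_mod_cast h3, by exact_mod_cast h2, ?_, by exact_mod_cast h1⟩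
  have h7 : 8 * (n - 2 * kk n) ≤ 2 * qq n := by
    have := q_ge n hn
    omega
  have h8 : (8 : ℝ) * (((n - 2 * kk n : ℕ)) : ℝ) ≤ 2 * qq n := by exact_mod_cast h7
  rw [Nat.cast_sub h2] at h8
  have h9 : (qq n : ℝ) ≤ Real.sqrt n := Real.nat_sqrt_le_real_sqrt
  push_cast at h8
  linarith

theorem wY_eq (hn : 1000000 ≤ n) :
    wY n = Real.log n / 2 + Real.log n * (n - 2 * kk n) / (2 * n) := by
  unfold wY
  have := npos hn
  field_simp
  ring

theorem wZ_le (hn : 1000000 ≤ n) : wZ n ≤ Real.log n / 2 := by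
  unfold wZ
  have h1 := npos hn
  have h2 := (kk_real hn).2.1
  have h3 := log_pos' hn
  rw [div_le_iff₀ h1]
  nlinarith

theorem wZ_ge (hn : 1000000 ≤ n) : 2 * Real.log n / 5 ≤ wZ n := by
  unfold wZ
  have h1 := npos hn
  have h2 := (kk_real hn).1
  have h3 := log_pos' hn
  rw [le_div_iff₀ h1]
  nlinarith

theorem exp_half_log (hn : 1000000 ≤ n) : Real.exp (Real.log n / 2) = Real.sqrt n := by
  rw [Real.sqrt_eq_rpow, Real.rpow_def_of_pos (npos hn)]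
  congr 1
  ring

theorem expY_le (hn : 1000000 ≤ n) : Real.exp (wY n) ≤ 13 / 10 * Real.sqrt n := by
  rw [wY_eq hn, Real.exp_add, exp_half_log hn]
  have h1 := npos hn
  have h2 := (kk_real hn).2.2.1
  have h3 := log_le hn
  have h4 := log_pos' hn
  have hs := sbig hn
  have h5 : Real.log n * (n - 2 * kk n) / (2 * n) ≤ 1 / 4 := by
    rw [div_le_iff₀ (by positivity)]
    have h6 : Real.log n * (n - 2 * kk n) ≤ (2 * Real.sqrt n) * (Real.sqrt n / 4) := by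
      have h7 : (0 : ℝ) ≤ (n : ℝ) - 2 * kk n := by linarith [(kk_real hn).2.1]
      exact mul_le_mul h3 h2 h7 (by positivity)
    have h8 := sq_s (n := n)
    nlinarith
  have h6 : Real.exp (Real.log n * (n - 2 * kk n) / (2 * n)) ≤ 13 / 10 := by
    refine (Real.exp_le_exp.2 h5).trans ?_
    have h7 : Real.exp (1 / 4 : ℝ) ^ 4 = Real.exp 1 := by
      rw [← Real.exp_nat_mul]; norm_num
    have h8 := Real.exp_one_lt_d9
    by_contra hcon
    push Not at hcon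
    have h9 : (13 / 10 : ℝ) ^ 4 < Real.exp (1 / 4) ^ 4 :=
      pow_lt_pow_left₀ hcon (by norm_num) (by norm_num)
    rw [h7] at h9
    norm_num at h9
    linarith
  rw [mul_comm]
  exact mul_le_mul_of_nonneg_right h6 (Real.sqrt_nonneg _)

theorem expY_ge (hn : 1000000 ≤ n) : Real.sqrt n ≤ Real.exp (wY n) := by
  rw [wY_eq hn, Real.exp_add, exp_half_log hn]
  have h1 := npos hn
  have h2 := (kk_real hn).2.1
  have h4 := log_pos' hn
  have hs := sbig hn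
  have h5 : 0 ≤ Real.log n * (n - 2 * kk n) / (2 * n) := by
    apply div_nonneg _ (by positivity)
    apply mul_nonneg (by linarith)
    linarith
  have h6 : 1 ≤ Real.exp (Real.log n * (n - 2 * kk n) / (2 * n)) := Real.one_le_exp h5
  nlinarith

theorem expZ_le (hn : 1000000 ≤ n) : Real.exp (wZ n) ≤ Real.sqrt n := by
  rw [← exp_half_log hn]
  exact Real.exp_le_exp.2 (wZ_le hn)

theorem expZ_ge (hn : 1000000 ≤ n) : 2 ≤ Real.exp (wZ n) := by
  have h1 := wZ_ge hn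
  have h2 : (5 : ℝ) / 2 ≤ Real.log n := by
    rw [Real.le_log_iff_exp_le (npos hn)]
    have h3 : Real.exp (5 / 2 : ℝ) ≤ Real.exp 3 := Real.exp_le_exp.2 (by norm_num)
    have h4 : Real.exp 3 = Real.exp 1 ^ 3 := by rw [← Real.exp_nat_mul]; norm_num
    have h5 : Real.exp 1 ^ 3 ≤ 3 ^ 3 :=
      pow_le_pow_left₀ (Real.exp_pos _).le (by linarith [Real.exp_one_lt_d9]) 3
    have h6 := nbig hn
    rw [h4] at h3
    norm_num at h5
    linarith
  have h3 : 1 ≤ wZ n := by linarith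
  have h4 := Real.add_one_le_exp (wZ n)
  linarith

theorem NY_ge (hn : 1000000 ≤ n) : 2 / 5 * (n : ℝ) ^ 3 ≤ NY n (kk n) ∧ (NY n (kk n) : ℝ) ≤ (n : ℝ) ^ 3 := by
  obtain ⟨h1, h2, h3, h4⟩ := kk_real hn
  have h5 := npos hn
  unfold NY
  push_cast
  constructor
  · nlinarith [sq_nonneg (n : ℝ), mul_pos h5 h5]
  · nlinarith [sq_nonneg (n : ℝ), mul_pos h5 h5]

theorem NZ_ge (hn : 1000000 ≤ n) : 1 / 2 * (n : ℝ) ^ 3 ≤ NZ n (kk n) := by
  obtain ⟨h1, h2, h3, h4⟩ := kk_real hn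
  have h5 := npos hn
  have h6 : kk n ≤ n := by
    have := (kk_facts n hn).2.1
    omega
  unfold NZ
  rw [Nat.cast_mul, Nat.cast_sub h6, Nat.cast_pow]
  nlinarith [sq_nonneg (n : ℝ), mul_pos h5 h5]

/-- `n³ = n² s²`, with `s = √n ≥ 1000` -/
theorem pp_bounds (hn : 1000000 ≤ n) :
    (pp n : ℝ) * (Real.exp (wY n) - 1) ≤ NY n (kk n) - 1 ∧
    (NY n (kk n) : ℝ) - 1 < (pp n + 1) * (Real.exp (wY n) - 1) ∧
    3 * (n : ℝ) ^ 2 ≤ pp n := by
  have hs := sbig hn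
  have hE := expY_ge hn
  have hE2 := expY_le hn
  have hE1 : 0 < Real.exp (wY n) - 1 := by linarith
  have hN := (NY_ge hn).1
  have hn0 := npos hn
  have hnb := nbig hn
  have hsq := sq_s (n := n)
  have hN1 : (0 : ℝ) ≤ (NY n (kk n) : ℝ) - 1 := by
    have : (1 : ℝ) ≤ 2 / 5 * (n : ℝ) ^ 3 := by
      have : (1 : ℝ) ≤ n := by linarith
      nlinarith [mul_pos hn0 hn0, sq_nonneg (n : ℝ), pow_le_pow_left₀ (by norm_num) hnb 3]
    linarith
  have h1 : (pp n : ℝ) ≤ ((NY n (kk n) : ℝ) - 1) / (Real.exp (wY n) - 1) :=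
    Nat.floor_le (by positivity)
  have h2 : ((NY n (kk n) : ℝ) - 1) / (Real.exp (wY n) - 1) < pp n + 1 := Nat.lt_floor_add_one _
  rw [le_div_iff₀ hE1] at h1
  rw [div_lt_iff₀ hE1] at h2
  refine ⟨h1, h2, ?_⟩
  by_contra hcon
  push Not at hcon
  have h3 : ((pp n : ℝ) + 1) * (Real.exp (wY n) - 1) ≤ (4 * (n : ℝ) ^ 2) * (13 / 10 * Real.sqrt n) := by
    refine mul_le_mul ?_ (by linarith) hE1.le (by positivity)
    nlinarith
  have h4 : (n : ℝ) ^ 3 = (n : ℝ) ^ 2 * (Real.sqrt n) ^ 2 := by rw [hsq]; ring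
  have h5 : 0 < (n : ℝ) ^ 2 := by positivity
  have h6 : 1000 * ((n : ℝ) ^ 2 * Real.sqrt n) ≤ (n : ℝ) ^ 2 * (Real.sqrt n) ^ 2 := by
    nlinarith [mul_nonneg h5.le (Real.sqrt_nonneg (n : ℝ))]
  have h7 : 1 ≤ (n : ℝ) ^ 2 * Real.sqrt n := by nlinarith
  nlinarith

theorem ll_bounds (hn : 1000000 ≤ n) :
    (NZ n (kk n) : ℝ) - 1 ≤ ll n * (Real.exp (wZ n) - 1) ∧
    (ll n - 1) * (Real.exp (wZ n) - 1) < (NZ n (kk n) : ℝ) - 1 ∧
    4 * (n : ℝ) ^ 2 ≤ ll n := by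
  have hs := sbig hn
  have hE := expZ_ge hn
  have hE2 := expZ_le hn
  have hE1 : 0 < Real.exp (wZ n) - 1 := by linarith
  have hN := NZ_ge hn
  have hn0 := npos hn
  have hnb := nbig hn
  have hsq := sq_s (n := n)
  have hN1 : (0 : ℝ) ≤ (NZ n (kk n) : ℝ) - 1 := by
    have : (1 : ℝ) ≤ 1 / 2 * (n : ℝ) ^ 3 := by
      have : (1 : ℝ) ≤ n := by linarith
      nlinarith [mul_pos hn0 hn0, sq_nonneg (n : ℝ), pow_le_pow_left₀ (by norm_num) hnb 3]
    linarith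
  have h1 : ((NZ n (kk n) : ℝ) - 1) / (Real.exp (wZ n) - 1) ≤ ll n := Nat.le_ceil _
  have h2 : (ll n : ℝ) < ((NZ n (kk n) : ℝ) - 1) / (Real.exp (wZ n) - 1) + 1 :=
    Nat.ceil_lt_add_one (by positivity)
  rw [div_le_iff₀ hE1] at h1
  have h2' : (ll n : ℝ) - 1 < ((NZ n (kk n) : ℝ) - 1) / (Real.exp (wZ n) - 1) := by linarith
  rw [lt_div_iff₀ hE1] at h2'
  refine ⟨h1, h2', ?_⟩
  by_contra hcon
  push Not at hcon
  have h3 : (ll n : ℝ) * (Real.exp (wZ n) - 1) ≤ (4 * (n : ℝ) ^ 2) * Real.sqrt n := by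
    refine mul_le_mul hcon.le (by linarith) hE1.le (by positivity)
  have h4 : (n : ℝ) ^ 3 = (n : ℝ) ^ 2 * (Real.sqrt n) ^ 2 := by rw [hsq]; ring
  have h5 : 0 < (n : ℝ) ^ 2 := by positivity
  have h6 : 1000 * ((n : ℝ) ^ 2 * Real.sqrt n) ≤ (n : ℝ) ^ 2 * (Real.sqrt n) ^ 2 := by
    nlinarith [mul_nonneg h5.le (Real.sqrt_nonneg (n : ℝ))]
  have h7 : 1 ≤ (n : ℝ) ^ 2 * Real.sqrt n := by nlinarith
  nlinarith

theorem pow_le_of_step (x y δ : ℝ) (m n : ℕ) (hx : 0 < x) (hy : 0 ≤ y) (hδ : 0 ≤ δ)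
    (h : y ≤ x * (1 + δ)) (hm : m ≤ n) (hnd : n * δ ≤ 1 / 2) :
    y ^ m ≤ x ^ m * Real.exp (1 / 2) := by
  have h1 : (1 + δ) ^ m ≤ Real.exp (1 / 2) := by
    have h2 : (1 + δ) ≤ Real.exp δ := by
      have := Real.add_one_le_exp δ
      linarith
    calc (1 + δ) ^ m ≤ (Real.exp δ) ^ m := pow_le_pow_left₀ (by linarith) h2 m
      _ = Real.exp (m * δ) := by rw [← Real.exp_nat_mul]
      _ ≤ Real.exp (1 / 2) := by
        refine Real.exp_le_exp.2 (le_trans ?_ hnd)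
        exact mul_le_mul_of_nonneg_right (by exact_mod_cast hm) hδ
  calc y ^ m ≤ (x * (1 + δ)) ^ m := pow_le_pow_left₀ hy h m
    _ = x ^ m * (1 + δ) ^ m := mul_pow _ _ _
    _ ≤ x ^ m * Real.exp (1 / 2) := mul_le_mul_of_nonneg_left h1 (by positivity)

theorem rhoY_facts (hn : 1000000 ≤ n) :
    Real.exp (wY n) ≤ rhoY n (kk n) (pp n) ∧
    rhoY n (kk n) (pp n) ≤ Real.exp (wY n) * (1 + 1 / (2 * n)) := by
  obtain ⟨h1, h2, h3⟩ := pp_bounds hn
  obtain ⟨g1, g2, g3, g4⟩ := kk_real hn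
  have hE := expY_ge hn
  have hs := sbig hn
  have hnb := nbig hn
  have hn0 := npos hn
  have hkp : 2 * kk n ≤ pp n := by
    have : 2 * (kk n : ℝ) ≤ pp n := by nlinarith
    exact_mod_cast this
  have hNY : (1 : ℝ) ≤ NY n (kk n) := by
    have := (NY_ge hn).1
    nlinarith [mul_pos hn0 hn0, pow_le_pow_left₀ (by norm_num) hnb 3]
  have hNYn : 1 ≤ NY n (kk n) := by exact_mod_cast hNY
  unfold rhoY
  have e1 : ((NY n (kk n) + pp n - 2 * kk n : ℕ) : ℝ) = NY n (kk n) + pp n - 2 * kk n := by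
    rw [Nat.cast_sub (by omega)]
    push_cast
    ring
  have e2 : ((pp n - 2 * kk n + 1 : ℕ) : ℝ) = pp n - 2 * kk n + 1 := by
    rw [Nat.cast_add, Nat.cast_sub hkp]
    push_cast
    ring
  rw [e1, e2]
  have hP : (0 : ℝ) < (pp n : ℝ) - 2 * kk n + 1 := by
    have : 2 * (kk n : ℝ) ≤ pp n := by exact_mod_cast hkp
    linarith
  have hE1 : 0 < Real.exp (wY n) - 1 := by linarith
  generalize Real.exp (wY n) = E at *
  constructor
  · rw [le_div_iff₀ hP]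
    nlinarith
  · rw [div_le_iff₀ hP]
    -- `NY - 1 ≤ (p+1)(E-1)`
    have h4 : (1 + 1 / (2 * (n : ℝ))) * ((pp n : ℝ) - 2 * kk n + 1) ≥ (pp n : ℝ) + 1 := by
      have h5 : 1 / (2 * (n : ℝ)) * ((pp n : ℝ) - 2 * kk n + 1) ≥ 2 * kk n := by
        rw [ge_iff_le, one_div, ← div_eq_inv_mul, le_div_iff₀ (by positivity)]
        nlinarith
      nlinarith
    nlinarith

theorem rhoZ_facts (hn : 1000000 ≤ n) :
    Real.exp (-wZ n) ≤ rhoZ n (kk n) (ll n) ∧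
    rhoZ n (kk n) (ll n) ≤ Real.exp (-wZ n) * (1 + 1 / (2 * n)) ∧
    rhoZ n (kk n) (ll n) ≤ 1 := by
  obtain ⟨h1, h2, h3⟩ := ll_bounds hn
  have hE := expZ_ge hn
  have hs := sbig hn
  have hnb := nbig hn
  have hn0 := npos hn
  have hl1 : (1 : ℝ) ≤ ll n := by nlinarith
  have hl1' : 1 ≤ ll n := by exact_mod_cast hl1
  have hNZ : (1 : ℝ) ≤ NZ n (kk n) := by
    have := NZ_ge hn
    nlinarith [mul_pos hn0 hn0, pow_le_pow_left₀ (by norm_num) hnb 3]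
  have hNZn : 1 ≤ NZ n (kk n) := by exact_mod_cast hNZ
  unfold rhoZ
  have e1 : ((NZ n (kk n) + ll n - 1 : ℕ) : ℝ) = NZ n (kk n) + ll n - 1 := by
    rw [Nat.cast_sub (by omega)]
    push_cast
    ring
  rw [e1, Real.exp_neg]
  have hP : (0 : ℝ) < (NZ n (kk n) : ℝ) + ll n - 1 := by linarith
  generalize Real.exp (wZ n) = F at *
  have hF0 : 0 < F := by linarith
  refine ⟨?_, ?_, ?_⟩
  · rw [le_div_iff₀ hP, ← div_eq_inv_mul, div_le_iff₀ hF0]
    nlinarith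
  · rw [div_le_iff₀ hP]
    have h4 : (ll n : ℝ) * F ≤ (1 + 1 / (2 * (n : ℝ))) * ((NZ n (kk n) : ℝ) + ll n - 1) := by
      have h5 : (ll n : ℝ) * F - F ≤ (NZ n (kk n) : ℝ) + ll n - 1 := by nlinarith
      have h6 : F ≤ 1 / (2 * (n : ℝ)) * ((NZ n (kk n) : ℝ) + ll n - 1) := by
        have h7 : F * (2 * n) ≤ (NZ n (kk n) : ℝ) + ll n - 1 := by
          have h8 : 2 * (n : ℝ) + 1 ≤ ll n := by nlinarith
          nlinarith
        rw [one_div, ← div_eq_inv_mul, le_div_iff₀ (by positivity)]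
        exact h7
      nlinarith
    calc (ll n : ℝ) = F⁻¹ * ((ll n : ℝ) * F) := by field_simp
      _ ≤ F⁻¹ * ((1 + 1 / (2 * (n : ℝ))) * ((NZ n (kk n) : ℝ) + ll n - 1)) :=
        mul_le_mul_of_nonneg_left h4 (by positivity)
      _ = _ := by ring
  · rw [div_le_one hP]
    linarith

theorem weight_eq (hn : 1000000 ≤ n) (i : ℕ) (hi : rnd n (kk n) i ≤ i) :
    Real.exp (wY n) ^ (rnd n (kk n) i) * Real.exp (-wZ n) ^ (i - rnd n (kk n) i) =
      Real.exp (Real.log n * ((rnd n (kk n) i : ℝ) - (kk n : ℝ) * i / n)) := by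
  rw [← Real.exp_nat_mul, ← Real.exp_nat_mul, ← Real.exp_add]
  congr 1
  rw [Nat.cast_sub hi]
  unfold wY wZ
  have := npos hn
  field_simp
  ring

theorem prod_facts (hn : 1000000 ≤ n) (i : ℕ) (hi : i ≤ n) :
    (rhoY n (kk n) (pp n)) ^ (rnd n (kk n) i) * (rhoZ n (kk n) (ll n)) ^ (i - rnd n (kk n) i)
        ≤ 3 * Real.sqrt n ∧
      1 ≤ 3 * Real.sqrt n * ((rhoY n (kk n) (pp n)) ^ (rnd n (kk n) i)
        * (rhoZ n (kk n) (ll n)) ^ (i - rnd n (kk n) i)) := by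
  obtain ⟨f1, f2, f3, f4, f5, f6⟩ := kk_facts n hn
  obtain ⟨y1, y2⟩ := rhoY_facts hn
  obtain ⟨z1, z2, z3⟩ := rhoZ_facts hn
  have hn0 := npos hn
  have hz0 : 0 < rhoZ n (kk n) (ll n) := lt_of_lt_of_le (Real.exp_pos _) z1
  have hr := rnd_le n (kk n) i (by omega) f2
  have hw := weight_eq hn i hr
  have hb := rnd_bounds n (kk n) i (by omega)
  rw [abs_le] at hb
  have hlog := log_pos' hn
  have hup : Real.exp (Real.log n * ((rnd n (kk n) i : ℝ) - (kk n : ℝ) * i / n)) ≤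
      Real.sqrt n := by
    rw [← exp_half_log hn]
    refine Real.exp_le_exp.2 ?_
    nlinarith
  have hlo : 1 ≤ Real.sqrt n *
      Real.exp (Real.log n * ((rnd n (kk n) i : ℝ) - (kk n : ℝ) * i / n)) := by
    rw [← exp_half_log hn, ← Real.exp_add]
    refine Real.one_le_exp ?_
    nlinarith
  rw [← hw] at hup hlo
  have hm1 : rnd n (kk n) i ≤ n := hr.trans hi
  have hm2 : i - rnd n (kk n) i ≤ n := (Nat.sub_le _ _).trans hi
  have hδ : (n : ℝ) * (1 / (2 * n)) ≤ 1 / 2 := by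
    have : (n : ℝ) * (1 / (2 * n)) = 1 / 2 := by field_simp
    rw [this]
  have hYp := pow_le_of_step (Real.exp (wY n)) (rhoY n (kk n) (pp n)) (1 / (2 * n))
    (rnd n (kk n) i) n (Real.exp_pos _) (le_trans (Real.exp_pos _).le y1) (by positivity) y2
    hm1 hδ
  have hZp := pow_le_of_step (Real.exp (-wZ n)) (rhoZ n (kk n) (ll n)) (1 / (2 * n))
    (i - rnd n (kk n) i) n (Real.exp_pos _) hz0.le (by positivity) z2
    hm2 hδ
  have hYl : Real.exp (wY n) ^ (rnd n (kk n) i) ≤ rhoY n (kk n) (pp n) ^ (rnd n (kk n) i) :=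
    pow_le_pow_left₀ (Real.exp_pos _).le y1 _
  have hZl : Real.exp (-wZ n) ^ (i - rnd n (kk n) i) ≤
      rhoZ n (kk n) (ll n) ^ (i - rnd n (kk n) i) :=
    pow_le_pow_left₀ (Real.exp_pos _).le z1 _
  have hA0 : 0 ≤ Real.exp (wY n) ^ (rnd n (kk n) i) := by positivity
  have hB0 : 0 ≤ Real.exp (-wZ n) ^ (i - rnd n (kk n) i) := by positivity
  have hC0 : 0 ≤ rhoZ n (kk n) (ll n) ^ (i - rnd n (kk n) i) := by positivity
  have hD0 : 0 ≤ rhoY n (kk n) (pp n) ^ (rnd n (kk n) i) := le_trans hA0 hYl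
  have hs0 : 0 ≤ Real.sqrt n := Real.sqrt_nonneg _
  generalize Real.exp (wY n) ^ (rnd n (kk n) i) = A at *
  generalize Real.exp (-wZ n) ^ (i - rnd n (kk n) i) = B at *
  generalize rhoZ n (kk n) (ll n) ^ (i - rnd n (kk n) i) = C at *
  generalize rhoY n (kk n) (pp n) ^ (rnd n (kk n) i) = D at *
  have he : Real.exp (1 / 2) * Real.exp (1 / 2) ≤ 3 := by
    rw [← Real.exp_add]
    norm_num
    linarith [Real.exp_one_lt_d9]
  constructor
  · have h1 : D * C ≤ (A * Real.exp (1 / 2)) * (B * Real.exp (1 / 2)) :=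
      mul_le_mul hYp hZp hC0 (by positivity)
    refine h1.trans ?_
    have h2 : (A * Real.exp (1 / 2)) * (B * Real.exp (1 / 2)) =
        (A * B) * (Real.exp (1 / 2) * Real.exp (1 / 2)) := by ring
    rw [h2]
    calc (A * B) * (Real.exp (1 / 2) * Real.exp (1 / 2)) ≤ Real.sqrt n * 3 :=
          mul_le_mul hup he (by positivity) hs0
      _ = 3 * Real.sqrt n := by ring
  · have h1 : A * B ≤ D * C := mul_le_mul hYl hZl hB0 hD0
    have h2 : Real.sqrt n * (A * B) ≤ Real.sqrt n * (D * C) := mul_le_mul_of_nonneg_left h1 hs0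
    have h3 : 0 ≤ Real.sqrt n * (D * C) := mul_nonneg hs0 (mul_nonneg hD0 hC0)
    have h4 : 3 * Real.sqrt n * (D * C) = 3 * (Real.sqrt n * (D * C)) := by ring
    rw [h4]
    linarith

theorem NY_one (hn : 1000000 ≤ n) : 1 ≤ NY n (kk n) := by
  have h1 := (kk_facts n hn).1
  unfold NY
  have : 0 < n ^ 2 := by positivity
  exact Nat.mul_pos h1 this

theorem NZ_one (hn : 1000000 ≤ n) : 1 ≤ NZ n (kk n) := by
  have h1 := (kk_facts n hn).2.1
  unfold NZ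
  have h2 : 0 < n ^ 2 := by positivity
  have h3 : 0 < n - kk n := by omega
  exact Nat.mul_pos h3 h2

theorem kp (hn : 1000000 ≤ n) : 2 * kk n ≤ pp n := by
  have h3 := (pp_bounds hn).2.2
  have h2 := (kk_real hn).2.1
  have hnb := nbig hn
  have : 2 * (kk n : ℝ) ≤ pp n := by nlinarith
  exact_mod_cast this

theorem nl (hn : 1000000 ≤ n) : n ≤ ll n := by
  have h3 := (ll_bounds hn).2.2
  have hnb := nbig hn
  have : (n : ℝ) ≤ ll n := by nlinarith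
  exact_mod_cast this

theorem down (hn : 1000000 ≤ n) (a : ℕ) (ha : a ≤ pp n) :
    (Nat.multichoose (NY n (kk n)) (pp n - a) : ℝ)
      ≤ Real.exp (-(wY n * a)) * Nat.multichoose (NY n (kk n)) (pp n) := by
  have p1 := (pp_bounds hn).1
  have hE := expY_ge hn
  have hs := sbig hn
  have h := mc_down (NY n (kk n)) (pp n) (NY_one hn) (Real.exp (wY n)) (by linarith)
    (by linarith) a ha
  rw [Real.exp_neg, ← div_eq_inv_mul, le_div_iff₀ (Real.exp_pos _)]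
  rw [mul_comm (wY n) (a : ℝ), Real.exp_nat_mul]
  exact h

theorem up (hn : 1000000 ≤ n) (b : ℕ) :
    (Nat.multichoose (NZ n (kk n)) (ll n + b) : ℝ)
      ≤ Real.exp (wZ n * b) * Nat.multichoose (NZ n (kk n)) (ll n) := by
  have l1 := (ll_bounds hn).1
  have hE := expZ_ge hn
  have h := mc_up (NZ n (kk n)) (ll n) (NZ_one hn) (Real.exp (wZ n)) (by linarith) b
  rw [mul_comm (wZ n) (b : ℝ), Real.exp_nat_mul]
  exact h

theorem rhoY_le (hn : 1000000 ≤ n) : rhoY n (kk n) (pp n) ≤ 3 * Real.sqrt n := by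
  refine (rhoY_facts hn).2.trans ?_
  have hn0 := npos hn
  have hnb := nbig hn
  have h1 : 1 / (2 * (n : ℝ)) ≤ 1 := by
    rw [div_le_one (by positivity)]
    linarith
  have hE2 := expY_le hn
  have hs := sbig hn
  calc Real.exp (wY n) * (1 + 1 / (2 * n)) ≤ (13 / 10 * Real.sqrt n) * 2 :=
        mul_le_mul hE2 (by linarith) (by positivity) (by positivity)
    _ ≤ 3 * Real.sqrt n := by linarith

theorem rhoZ_ge (hn : 1000000 ≤ n) : 1 ≤ 3 * Real.sqrt n * rhoZ n (kk n) (ll n) := by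
  have z1 := (rhoZ_facts hn).1
  have hF2 := expZ_le hn
  have hs := sbig hn
  have hzF : 1 ≤ Real.sqrt n * Real.exp (-wZ n) := by
    rw [Real.exp_neg, ← div_eq_mul_inv, le_div_iff₀ (Real.exp_pos _)]
    linarith
  have h1 : Real.sqrt n * Real.exp (-wZ n) ≤ Real.sqrt n * rhoZ n (kk n) (ll n) :=
    mul_le_mul_of_nonneg_left z1 (Real.sqrt_nonneg _)
  have h2 : 3 * Real.sqrt n * rhoZ n (kk n) (ll n) = 3 * (Real.sqrt n * rhoZ n (kk n) (ll n)) := by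
    ring
  rw [h2]
  linarith

end

end Prm

open Prm in
theorem params : ∃ n₁ : ℕ, ∀ n ≥ n₁,
    1 ≤ kk n ∧ 2 * kk n ≤ n ∧ 2 * n ≤ 5 * kk n ∧ n - 2 * kk n ≤ qq n / 8 + 1 ∧
    qq n / 8 ≤ n - 2 * kk n ∧ 4 * (n - 2 * kk n) * qq n ≤ n ∧
    wY n * kk n = wZ n * ((n - kk n : ℕ) : ℝ) ∧
    2 * kk n ≤ pp n ∧ n ≤ ll n ∧
    (∀ a ≤ pp n, (Nat.multichoose (NY n (kk n)) (pp n - a) : ℝ)
      ≤ Real.exp (-(wY n * a)) * Nat.multichoose (NY n (kk n)) (pp n)) ∧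
    (∀ b : ℕ, (Nat.multichoose (NZ n (kk n)) (ll n + b) : ℝ)
      ≤ Real.exp (wZ n * b) * Nat.multichoose (NZ n (kk n)) (ll n)) ∧
    1 ≤ rhoY n (kk n) (pp n) ∧ 0 < rhoZ n (kk n) (ll n) ∧ rhoZ n (kk n) (ll n) ≤ 1 ∧
    rhoY n (kk n) (pp n) ≤ 3 * Real.sqrt n ∧ 1 ≤ 3 * Real.sqrt n * rhoZ n (kk n) (ll n) ∧
    (∀ i ≤ n, (rhoY n (kk n) (pp n)) ^ (rnd n (kk n) i) * (rhoZ n (kk n) (ll n)) ^ (i - rnd n (kk n) i)
        ≤ 3 * Real.sqrt n ∧
      1 ≤ 3 * Real.sqrt n * ((rhoY n (kk n) (pp n)) ^ (rnd n (kk n) i)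
        * (rhoZ n (kk n) (ll n)) ^ (i - rnd n (kk n) i))) := by
  refine ⟨1000000, fun n hn => ?_⟩
  obtain ⟨f1, f2, f3, f4, f5, f6⟩ := kk_facts n hn
  have y1 := (rhoY_facts hn).1
  have z1 := (rhoZ_facts hn).1
  have z3 := (rhoZ_facts hn).2.2
  have hE := expY_ge hn
  have hs := sbig hn
  refine ⟨f1, f2, f3, f4, f5, f6, ?_, kp hn, nl hn, down hn, up hn, by linarith,
    lt_of_lt_of_le (Real.exp_pos _) z1, z3, rhoY_le hn, rhoZ_ge hn, prod_facts hn⟩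
  rw [Nat.cast_sub (by omega)]
  unfold wY wZ
  ring

end

end Crest.Agent.D5
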