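import Mathlib
import Crest.Agent.S504.Defs

/-! # S0504 L2, second half: positions and degrees of path monomials -/

set_option autoImplicit false

namespace Crest.Agent.D5

open MvPolynomial Finset Crest.ArithCircuit

noncomputable section

theorem rnd_zero (n k : ℕ) (hn : 1 ≤ n) : rnd n k 0 = 0 := by
  unfold rnd
  apply Nat.div_eq_of_lt
  omega

theorem rnd_self (n k : ℕ) (hn : 1 ≤ n) : rnd n k n = k := by
  unfold rnd
  rw [show 2 * n * k + n = n + (2 * n) * k by ring, Nat.add_mul_div_left _ _ (by omega),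
    Nat.div_eq_of_lt (by omega)]
  simp

theorem rnd_mono_succ (n k j : ℕ) : rnd n k j ≤ rnd n k (j + 1) := by
  unfold rnd
  apply Nat.div_le_div_right
  nlinarith [Nat.zero_le k]

theorem rnd_succ_le (n k j : ℕ) (hn : 1 ≤ n) (hk : k ≤ n) : rnd n k (j + 1) ≤ rnd n k j + 1 := by
  unfold rnd
  rw [← Nat.add_div_right _ (by omega : 0 < 2 * n)]
  apply Nat.div_le_div_right
  nlinarith

theorem card_isY (n k : ℕ) (hn : 1 ≤ n) (hk : k ≤ n) (i : ℕ) :
    ((Finset.range i).filter (fun j => isY n k j)).card = rnd n k i := by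
  induction i with
  | zero => simp [rnd_zero n k hn]
  | succ i ih =>
    rw [Finset.range_add_one, Finset.filter_insert]
    have h1 := rnd_mono_succ n k i
    have h2 := rnd_succ_le n k i hn hk
    split_ifs with h
    · rw [Finset.card_insert_of_notMem (by simp), ih]
      unfold isY at h
      omega
    · rw [ih]
      unfold isY at h
      omega

theorem card_isY_fin (n k : ℕ) (hn : 1 ≤ n) (hk : k ≤ n) :
    ((Finset.univ : Finset (Fin n)).filter (fun j => isY n k j.val)).card = k := by
  conv_rhs => rw [← rnd_self n k hn, ← card_isY n k hn hk n]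
  rw [← Finset.card_map Fin.valEmbedding]
  congr 1
  ext j
  simp only [Finset.mem_map, Finset.mem_filter, Finset.mem_univ, true_and, Finset.mem_range,
    Fin.valEmbedding_apply]
  constructor
  · rintro ⟨i, hi, rfl⟩
    exact ⟨i.isLt, hi⟩
  · rintro ⟨h1, h2⟩
    exact ⟨⟨j, h1⟩, h2, rfl⟩

theorem card_YV (n k : ℕ) (hn : 1 ≤ n) (hk : k ≤ n) : (YV n k).card = NY n k := by
  have h : YV n k = ((Finset.univ : Finset (Fin n)).filter (fun j => isY n k j.val)) ×ˢ
      (Finset.univ : Finset (Fin n × Fin n)) := by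
    ext v
    simp [YV]
  rw [h, Finset.card_product, card_isY_fin n k hn hk]
  simp [NY, sq]

theorem card_YV_compl (n k : ℕ) (hn : 1 ≤ n) (hk : k ≤ n) : (YV n k)ᶜ.card = NZ n k := by
  rw [Finset.card_compl, card_YV n k hn hk]
  simp only [Fintype.card_prod, Fintype.card_fin, NY, NZ, Nat.sub_mul]
  congr 1
  ring

theorem dg_YV_pmon (n k : ℕ) (hn : 1 ≤ n) (hk : k ≤ n) (a : Fin (n + 1) → Fin n) :
    dg (YV n k) (pmon a) = k := by
  unfold dg pmon
  simp only [Finsupp.coe_finsetSum, Finset.sum_apply]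
  rw [Finset.sum_comm]
  have h1 : ∀ j : Fin n, ∑ v ∈ YV n k, (Finsupp.single (j, a j.castSucc, a j.succ) 1 : (Fin n × Fin n × Fin n) →₀ ℕ) v
      = if isY n k j.val then 1 else 0 := by
    intro j
    split_ifs with h
    · rw [Finset.sum_eq_single (j, a j.castSucc, a j.succ)]
      · simp
      · intro v _ hv
        exact Finsupp.single_eq_of_ne hv
      · intro hv
        exfalso
        apply hv
        simp [YV, h]
    · apply Finset.sum_eq_zero
      intro v hv
      apply Finsupp.single_eq_of_ne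
      rintro rfl
      simp [YV] at hv
      exact h hv
  rw [Finset.sum_congr rfl (fun j _ => h1 j), ← Finset.sum_filter]
  simp only [Finset.sum_const, smul_eq_mul, mul_one]
  exact card_isY_fin n k hn hk

theorem sum_pmon (n : ℕ) (a : Fin (n + 1) → Fin n) : ∑ v, pmon a v = n := by
  unfold pmon
  simp only [Finsupp.coe_finsetSum, Finset.sum_apply]
  rw [Finset.sum_comm]
  have h1 : ∀ j : Fin n, ∑ v, (Finsupp.single (j, a j.castSucc, a j.succ) 1 : (Fin n × Fin n × Fin n) →₀ ℕ) v
      = 1 := by
    intro j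
    rw [Finset.sum_eq_single (j, a j.castSucc, a j.succ)]
    · simp
    · intro v _ hv
      exact Finsupp.single_eq_of_ne hv
    · intro hv
      exact absurd (Finset.mem_univ _) hv
  rw [Finset.sum_congr rfl (fun j _ => h1 j)]
  simp

theorem dg_pmon (n k : ℕ) (hn : 1 ≤ n) (hk : k ≤ n) (a : Fin (n + 1) → Fin n) :
    dg (YV n k) (pmon a) = k ∧ dg (YV n k)ᶜ (pmon a) = n - k := by
  have h1 := dg_YV_pmon n k hn hk a
  refine ⟨h1, ?_⟩
  have h2 : dg (YV n k) (pmon a) + dg (YV n k)ᶜ (pmon a) = n := by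
    unfold dg
    rw [Finset.sum_add_sum_compl]
    exact sum_pmon n a
  omega

theorem pmon_injective (n : ℕ) (hn : 1 ≤ n) : Function.Injective (pmon (n := n)) := by
  intro a b hab
  have key : ∀ j : Fin n, a j.castSucc = b j.castSucc ∧ a j.succ = b j.succ := by
    intro j
    have h1 : 1 ≤ pmon a (j, a j.castSucc, a j.succ) := by
      unfold pmon
      simp only [Finsupp.coe_finsetSum, Finset.sum_apply]
      have h2 := Finset.single_le_sum (f := fun x : Fin n => (Finsupp.single (x, a x.castSucc, a x.succ) 1 : (Fin n × Fin n × Fin n) →₀ ℕ) (j, a j.castSucc, a j.succ)) (fun _ _ => Nat.zero_le _) (Finset.mem_univ j)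
      simpa using h2
    rw [hab] at h1
    unfold pmon at h1
    simp only [Finsupp.coe_finsetSum, Finset.sum_apply] at h1
    have h1' : (∑ x : Fin n, (Finsupp.single (x, b x.castSucc, b x.succ) 1 : (Fin n × Fin n × Fin n) →₀ ℕ) (j, a j.castSucc, a j.succ)) ≠ 0 := by
      intro h0
      rw [h0] at h1
      omega
    obtain ⟨i, _, hi⟩ := Finset.exists_ne_zero_of_sum_ne_zero h1'
    rw [Finsupp.single_apply] at hi
    split_ifs at hi with h
    · rw [Prod.mk.injEq, Prod.mk.injEq] at h
      obtain ⟨rfl, h2, h3⟩ := h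
      exact ⟨h2.symm, h3.symm⟩
    · exact absurd rfl hi
  funext m
  refine Fin.lastCases ?_ (fun m => (key m).1) m
  have e : Fin.last n = Fin.succ (⟨n - 1, by omega⟩ : Fin n) := by
    apply Fin.ext
    simp
    omega
  rw [e]
  exact (key _).2

end

end Crest.Agent.D5
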