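import Mathlib
import Crest.Agent.S504.Defs
import Crest.Agent.IMM5.RankTrace

set_option autoImplicit false

namespace Crest.Agent.D5

open MvPolynomial Finset Crest.ArithCircuit

noncomputable section

theorem rank_ge_of_trace {m n : Type*} [Fintype m] [Fintype n] [DecidableEq m] [DecidableEq n]
    (M : Matrix m n ℝ) :
    (∑ i, ∑ j, M i j ^ 2) ^ 2 ≤ (M.rank : ℝ) * ∑ j, ∑ j', (∑ i, M i j * M i j') ^ 2 := by
  have hG : (M.transpose * M).IsHermitian := by
    have := Matrix.isHermitian_conjTranspose_mul_self M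
    rwa [Matrix.conjTranspose_eq_transpose_of_trivial] at this
  have h := IMM5.trace_sq_le_rank_mul _ hG
  rw [Matrix.rank_transpose_mul_self] at h
  have h1 : (M.transpose * M).trace = ∑ i, ∑ j, M i j ^ 2 := by
    simp only [Matrix.trace, Matrix.diag_apply, Matrix.mul_apply, Matrix.transpose_apply]
    rw [Finset.sum_comm]
    exact Finset.sum_congr rfl fun i _ => Finset.sum_congr rfl fun j _ => (sq _).symm
  have h2 : ((M.transpose * M) * (M.transpose * M)).trace
      = ∑ j, ∑ j', (∑ i, M i j * M i j') ^ 2 := by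
    simp only [Matrix.trace, Matrix.diag_apply, Matrix.mul_apply, Matrix.transpose_apply]
    refine Finset.sum_congr rfl fun j _ => Finset.sum_congr rfl fun j' _ => ?_
    rw [sq]
    congr 1
    exact Finset.sum_congr rfl fun i _ => mul_comm _ _
  rw [h1, h2] at h
  exact h

theorem rank_cast_le {m n : Type*} [Fintype m] [Fintype n] [DecidableEq m] [DecidableEq n]
    (M : Matrix m n ℕ) (K : Type*) [Field K] [CharZero K] :
    (M.map (Nat.cast : ℕ → ℝ)).rank ≤ (M.map (Nat.cast : ℕ → K)).rank := by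
  set AQ : Matrix m n ℚ := M.map (Nat.cast : ℕ → ℚ) with hAQ
  set AR : Matrix m n ℝ := M.map (Nat.cast : ℕ → ℝ) with hAR
  set AK : Matrix m n K := M.map (Nat.cast : ℕ → K) with hAK
  set G : Matrix n n ℚ := AQ.transpose * AQ with hG
  have hGK : G.map (algebraMap ℚ K) = AK.transpose * AK := by
    ext i j
    simp [hG, hAQ, hAK, Matrix.mul_apply, Matrix.map_apply]
  have hGR : G.map (algebraMap ℚ ℝ) = AR.transpose * AR := by
    ext i j
    simp [hG, hAQ, hAR, Matrix.mul_apply, Matrix.map_apply]
  have hr1 : (G.map (algebraMap ℚ K)).rank = G.rank := IMM5.rank_map_sq _ _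
  have hr2 : (G.map (algebraMap ℚ ℝ)).rank = G.rank := IMM5.rank_map_sq _ _
  rw [← Matrix.rank_transpose_mul_self AR, ← hGR, hr2, ← hr1, hGK]
  exact Matrix.rank_mul_le_right _ _

end

end Crest.Agent.D5
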