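import Mathlib
import Crest.Agent.S504.Defs
import Crest.Agent.S504.PMDef
import Crest.Agent.S504.Path
import Crest.Agent.S504.Card

/-! # S0504 L3: the matrix of `imm` and the first trace -/

set_option autoImplicit false

namespace Crest.Agent.D5

open MvPolynomial Finset Crest.ArithCircuit

noncomputable section

theorem Mt_imm_eq (K : Type*) [Field K] (N k p l p' l' : ℕ) :
    Mt (YV (N + 1) k) (imm K (N + 1)) p l p' l' = (PM N k p l p' l').map (Nat.cast : ℕ → K) := by
  classical
  ext m' m
  simp only [Mt, PM, Matrix.of_apply, Matrix.map_apply]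
  by_cases h : Ok (YV (N + 1) k) m.1 m'.1
  · rw [if_pos h, imm_eq, coeff_sum]
    simp only [coeff_monomial, h, true_and]
    rw [Finset.card_filter, Nat.cast_sum]
    apply Finset.sum_congr rfl
    intro a _
    by_cases h2 : pmon a = dif (YV (N + 1) k) m.1 m'.1
    · rw [if_pos h2, if_pos h2.symm]; simp
    · rw [if_neg h2, if_neg (fun h => h2 h.symm)]; simp
  · rw [if_neg h]
    simp [h]

section
variable {ι : Type*} [Fintype ι] [DecidableEq ι]

/-- action of the monomial `d` on `m`. -/
def act (Y : Finset ι) (d m : ι →₀ ℕ) : ι →₀ ℕ :=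
  Finsupp.equivFunOnFinite.symm (fun i => if i ∈ Y then m i - d i else m i + d i)

/-- restriction to `Y` -/
def resY (Y : Finset ι) (d : ι →₀ ℕ) : ι →₀ ℕ :=
  Finsupp.equivFunOnFinite.symm (fun i => if i ∈ Y then d i else 0)

theorem resY_le_iff (Y : Finset ι) (d m : ι →₀ ℕ) : resY Y d ≤ m ↔ ∀ i ∈ Y, d i ≤ m i := by
  constructor
  · intro h i hi
    have := h i
    simpa [resY, hi] using this
  · intro h i
    by_cases hi : i ∈ Y
    · simpa [resY, hi] using h i hi
    · simp [resY, hi]

theorem Ok_dif_iff (Y : Finset ι) (d m m' : ι →₀ ℕ) :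
    (Ok Y m m' ∧ dif Y m m' = d) ↔ (resY Y d ≤ m ∧ m' = act Y d m) := by
  rw [resY_le_iff]
  constructor
  · rintro ⟨h1, rfl⟩
    constructor
    · intro i hi
      have := h1 i
      simp only [dif, Finsupp.equivFunOnFinite_symm_apply_apply, hi, if_true] at this ⊢
      omega
    · ext i
      have := h1 i
      simp only [dif, act, Finsupp.equivFunOnFinite_symm_apply_apply] at this ⊢
      split_ifs with hi
      · rw [if_pos hi] at this; omega
      · rw [if_neg hi] at this; omega
  · rintro ⟨h1, rfl⟩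
    constructor
    · intro i
      simp only [act, Finsupp.equivFunOnFinite_symm_apply_apply]
      split_ifs with hi
      · omega
      · omega
    · ext i
      simp only [dif, act, Finsupp.equivFunOnFinite_symm_apply_apply]
      split_ifs with hi
      · have := h1 i hi; omega
      · omega

theorem dg_act_Y (Y : Finset ι) (d m : ι →₀ ℕ) (h : resY Y d ≤ m) :
    dg Y (act Y d m) + dg Y d = dg Y m := by
  rw [resY_le_iff] at h
  unfold dg
  rw [← Finset.sum_add_distrib]
  apply Finset.sum_congr rfl
  intro i hi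
  simp only [act, Finsupp.equivFunOnFinite_symm_apply_apply, hi, if_true]
  have := h i hi
  omega

theorem dg_act_Z (Y : Finset ι) (d m : ι →₀ ℕ) :
    dg Yᶜ (act Y d m) = dg Yᶜ m + dg Yᶜ d := by
  unfold dg
  rw [← Finset.sum_add_distrib]
  apply Finset.sum_congr rfl
  intro i hi
  rw [Finset.mem_compl] at hi
  simp only [act, Finsupp.equivFunOnFinite_symm_apply_apply, hi, if_false]

theorem dg_resY_Y (Y : Finset ι) (d : ι →₀ ℕ) : dg Y (resY Y d) = dg Y d := by
  unfold dg
  apply Finset.sum_congr rfl
  intro i hi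
  simp only [resY, Finsupp.equivFunOnFinite_symm_apply_apply, hi, if_true]

theorem dg_resY_Z (Y : Finset ι) (d : ι →₀ ℕ) : dg Yᶜ (resY Y d) = 0 := by
  unfold dg
  apply Finset.sum_eq_zero
  intro i hi
  rw [Finset.mem_compl] at hi
  simp only [resY, Finsupp.equivFunOnFinite_symm_apply_apply, hi, if_false]

end

theorem PM_le_one (N k p l p' l' : ℕ) (i : Sec (YV (N + 1) k) p' l') (j : Sec (YV (N + 1) k) p l) :
    PM N k p l p' l' i j ≤ 1 := by
  classical
  simp only [PM, Matrix.of_apply]
  rw [Finset.card_le_one]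
  intro a ha b hb
  rw [Finset.mem_filter] at ha hb
  exact pmon_injective (N + 1) (by omega) (ha.2.2.symm.trans hb.2.2)

/-- L3 -/
theorem trace_one (N k p l : ℕ) (hk : k ≤ N + 1) (hp : k ≤ p) :
    ∑ i, ∑ j, ((PM N k p l (p - k) (l + (N + 1 - k)) i j : ℕ) : ℝ) ^ 2
      = (N + 1 : ℝ) ^ N * Nat.multichoose (NY (N + 1) k) (p - k) * Nat.multichoose (NZ (N + 1) k) l := by
  classical
  have h1 : ∀ i j, ((PM N k p l (p - k) (l + (N + 1 - k)) i j : ℕ) : ℝ) ^ 2 =
      ((PM N k p l (p - k) (l + (N + 1 - k)) i j : ℕ) : ℝ) := by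
    intro i j
    have := PM_le_one N k p l (p - k) (l + (N + 1 - k)) i j
    rcases Nat.le_one_iff_eq_zero_or_eq_one.mp this with h | h <;> rw [h] <;> simp
  simp only [h1]
  have h2 : ∑ i, ∑ j, PM N k p l (p - k) (l + (N + 1 - k)) i j =
      (N + 1) ^ N * (Nat.multichoose (NY (N + 1) k) (p - k) * Nat.multichoose (NZ (N + 1) k) l) := by
    have h3 : ∀ i j, PM N k p l (p - k) (l + (N + 1 - k)) i j =
        ∑ a ∈ Pth N, if (resY (YV (N + 1) k) (pmon a) ≤ j.1 ∧ i.1 = act (YV (N + 1) k) (pmon a) j.1)
          then 1 else 0 := by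
      intro i j
      simp only [PM, Matrix.of_apply]
      rw [Finset.card_filter]
      apply Finset.sum_congr rfl
      intro a _
      simp only [Ok_dif_iff]
    simp only [h3]
    have h4 : ∀ a ∈ Pth N, ∑ i : Sec (YV (N + 1) k) (p - k) (l + (N + 1 - k)),
        ∑ j : Sec (YV (N + 1) k) p l,
        (if (resY (YV (N + 1) k) (pmon a) ≤ j.1 ∧ i.1 = act (YV (N + 1) k) (pmon a) j.1)
          then 1 else 0) = Nat.multichoose (NY (N + 1) k) (p - k) * Nat.multichoose (NZ (N + 1) k) l := by
      intro a _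
      obtain ⟨hd1, hd2⟩ := dg_pmon (N + 1) k (by omega) hk a
      rw [Finset.sum_comm]
      have h5 : ∀ j : Sec (YV (N + 1) k) p l, 
          ∑ i : Sec (YV (N + 1) k) (p - k) (l + (N + 1 - k)),
        (if (resY (YV (N + 1) k) (pmon a) ≤ j.1 ∧ i.1 = act (YV (N + 1) k) (pmon a) j.1)
          then 1 else 0) = if resY (YV (N + 1) k) (pmon a) ≤ j.1 then 1 else 0 := by
        intro j
        split_ifs with hj
        · have hj2 := mem_Sec.mp j.2
          have hmem : act (YV (N + 1) k) (pmon a) j.1 ∈ Sec (YV (N + 1) k) (p - k) (l + (N + 1 - k)) := by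
            rw [mem_Sec]
            have e1 := dg_act_Y (YV (N + 1) k) (pmon a) j.1 hj
            have e2 := dg_act_Z (YV (N + 1) k) (pmon a) j.1
            constructor
            · omega
            · omega
          rw [Finset.sum_eq_single ⟨_, hmem⟩]
          · simp [hj]
          · intro i _ hi
            rw [if_neg]
            rintro ⟨_, h⟩
            exact hi (Subtype.ext h)
          · intro h; exact absurd (Finset.mem_univ _) h
        · apply Finset.sum_eq_zero
          intro i _
          rw [if_neg]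
          rintro ⟨h, _⟩
          exact hj h
      rw [Finset.sum_congr rfl (fun j _ => h5 j)]
      rw [Finset.sum_coe_sort (Sec (YV (N + 1) k) p l) (fun m => if resY (YV (N + 1) k) (pmon a) ≤ m then 1 else 0),
        ← Finset.card_filter]
      have h6 := card_Sec_filter (YV (N + 1) k) p l (resY (YV (N + 1) k) (pmon a))
        (by rw [dg_resY_Y, hd1]; exact hp) (by rw [dg_resY_Z]; omega)
      rw [dg_resY_Y, dg_resY_Z, hd1, card_YV _ _ (by omega) hk, card_YV_compl _ _ (by omega) hk] at h6
      rw [Nat.sub_zero] at h6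
      rw [← h6]
    rw [Finset.sum_congr rfl (fun i _ => Finset.sum_comm), Finset.sum_comm, Finset.sum_congr rfl h4]
    rw [Finset.sum_const, card_Pth, smul_eq_mul]
  rw [mul_assoc]
  exact_mod_cast h2

end

end Crest.Agent.D5
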