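import Mathlib
import Crest.Agent.S504.PMDef
import Crest.Agent.S504.Card
import Crest.Agent.S504.Path

/-! # S0504, module L4: the sum over 4-cycles -/

set_option autoImplicit false

namespace Crest.Agent.D5

open MvPolynomial Finset

noncomputable section

/-- `m'` is reached from `m` by the monomial `t` -/
def Ed {ι : Type*} [DecidableEq ι] (Y : Finset ι) (m m' t : ι →₀ ℕ) : Prop :=
  ∀ i, if i ∈ Y then m i = m' i + t i else m' i = m i + t i

theorem ed_iff {ι : Type*} [Fintype ι] [DecidableEq ι] (Y : Finset ι) (m m' t : ι →₀ ℕ) :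
    (Ok Y m m' ∧ dif Y m m' = t) ↔ Ed Y m m' t := by
  constructor
  · rintro ⟨h1, rfl⟩ i
    have h := h1 i
    by_cases hi : i ∈ Y
    · simp only [hi, if_true] at h ⊢
      simp only [dif, Finsupp.equivFunOnFinite_symm_apply_apply, hi, if_true]
      omega
    · simp only [hi, if_false] at h ⊢
      simp only [dif, Finsupp.equivFunOnFinite_symm_apply_apply, hi, if_false]
      omega
  · intro h
    refine ⟨fun i => ?_, ?_⟩
    · have := h i
      by_cases hi : i ∈ Y
      · simp only [hi, if_true] at this ⊢; omega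
      · simp only [hi, if_false] at this ⊢; omega
    · ext i
      have := h i
      by_cases hi : i ∈ Y
      · simp only [hi, if_true] at this
        simp only [dif, Finsupp.equivFunOnFinite_symm_apply_apply, hi, if_true]
        omega
      · simp only [hi, if_false] at this
        simp only [dif, Finsupp.equivFunOnFinite_symm_apply_apply, hi, if_false]
        omega

theorem pmon_apply {n : ℕ} (a : Fin (n + 1) → Fin n) (j u v : Fin n) :
    pmon a (j, u, v) = if (a j.castSucc, a j.succ) = (u, v) then 1 else 0 := by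
  unfold pmon
  rw [Finsupp.finsetSum_apply, Finset.sum_eq_single j]
  · rw [Finsupp.single_apply]
    simp [Prod.ext_iff]
  · intro b _ hb
    rw [Finsupp.single_apply, if_neg]
    intro h
    exact hb (congrArg Prod.fst h)
  · intro h; exact absurd (Finset.mem_univ _) h

/-- sums over the variables in `YV` -/
theorem sum_YV {n k : ℕ} (g : Fin n × Fin n × Fin n → ℕ) :
    ∑ i ∈ YV n k, g i = ∑ j : Fin n, if isY n k j then ∑ e : Fin n × Fin n, g (j, e) else 0 := by
  unfold YV
  rw [Finset.sum_filter, Fintype.sum_prod_type]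
  refine Finset.sum_congr rfl fun j _ => ?_
  by_cases h : isY n k j <;> simp [h]

theorem sum_YVc {n k : ℕ} (g : Fin n × Fin n × Fin n → ℕ) :
    ∑ i ∈ (YV n k)ᶜ, g i = ∑ j : Fin n, if isY n k j then 0 else ∑ e : Fin n × Fin n, g (j, e) := by
  have h : (YV n k)ᶜ = Finset.univ.filter (fun v => ¬ isY n k v.1) := by
    ext v; simp [YV]
  rw [h, Finset.sum_filter, Fintype.sum_prod_type]
  refine Finset.sum_congr rfl fun j _ => ?_
  by_cases h : isY n k j <;> simp [h]

/-- the edge of path `a` at position `j` -/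
def eg {n : ℕ} (a : Fin (n + 1) → Fin n) (j : Fin n) : Fin n × Fin n := (a j.castSucc, a j.succ)

theorem pmon_apply' {n : ℕ} (a : Fin (n + 1) → Fin n) (j : Fin n) (e : Fin n × Fin n) :
    pmon a (j, e) = if eg a j = e then 1 else 0 := pmon_apply a j e.1 e.2

/-- the lower-bound monomial for the first vertex of a 4-cycle -/
def lowm {ι : Type*} [Fintype ι] [DecidableEq ι] (Y : Finset ι) (A B D : ι →₀ ℕ) : ι →₀ ℕ :=
  Finsupp.equivFunOnFinite.symm (fun i => if i ∈ Y then max (A i) (D i) else B i - A i)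

theorem lowm_apply {ι : Type*} [Fintype ι] [DecidableEq ι] (Y : Finset ι) (A B D : ι →₀ ℕ) (i : ι) :
    lowm Y A B D i = if i ∈ Y then max (A i) (D i) else B i - A i := rfl

/-- the number of `Y` positions with equal edges -/
def HH (n k : ℕ) (a d : Fin (n + 1) → Fin n) : ℕ :=
  (Finset.univ.filter (fun j : Fin n => isY n k j ∧ eg a j = eg d j)).card
def hh (n k : ℕ) (a b : Fin (n + 1) → Fin n) : ℕ :=
  (Finset.univ.filter (fun j : Fin n => ¬ isY n k j ∧ eg a j ≠ eg b j)).card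

theorem dgY_lowm {n k : ℕ} (hn : 1 ≤ n) (hk : k ≤ n) (a b d : Fin (n + 1) → Fin n) :
    dg (YV n k) (lowm (YV n k) (pmon a) (pmon b) (pmon d)) + HH n k a d = 2 * k := by
  have h1 := (dg_pmon n k hn hk a).1
  have h2 := (dg_pmon n k hn hk d).1
  have h3 : HH n k a d = ∑ i ∈ YV n k, min (pmon a i) (pmon d i) := by
    rw [sum_YV, HH, Finset.card_filter]
    refine Finset.sum_congr rfl fun j _ => ?_
    by_cases hj : isY n k j
    · simp only [hj, true_and, if_true]
      by_cases he : eg a j = eg d j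
      · rw [if_pos he, Finset.sum_eq_single (eg a j)]
        · rw [pmon_apply', pmon_apply', if_pos rfl, if_pos he.symm]; rfl
        · intro e _ hne
          rw [pmon_apply', if_neg (Ne.symm hne)]; simp
        · intro h; exact absurd (Finset.mem_univ _) h
      · rw [if_neg he, eq_comm, Finset.sum_eq_zero]
        intro e _
        rw [pmon_apply', pmon_apply']
        by_cases h4 : eg a j = e
        · rw [if_neg (fun h5 : eg d j = e => he (h4.trans h5.symm))]; simp
        · rw [if_neg h4]; simp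
    · simp [hj]
  rw [h3]
  have h4 : dg (YV n k) (lowm (YV n k) (pmon a) (pmon b) (pmon d))
      = ∑ i ∈ YV n k, max (pmon a i) (pmon d i) := by
    unfold dg
    refine Finset.sum_congr rfl fun i hi => ?_
    rw [lowm_apply, if_pos hi]
  rw [h4, ← Finset.sum_add_distrib]
  unfold dg at h1 h2
  have h5 : ∑ i ∈ YV n k, (max (pmon a i) (pmon d i) + min (pmon a i) (pmon d i))
      = ∑ i ∈ YV n k, (pmon a i + pmon d i) :=
    Finset.sum_congr rfl fun i _ => max_add_min _ _
  rw [h5, Finset.sum_add_distrib]; omega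

theorem dgZ_lowm {n k : ℕ} (a b d : Fin (n + 1) → Fin n) :
    dg (YV n k)ᶜ (lowm (YV n k) (pmon a) (pmon b) (pmon d)) = hh n k a b := by
  have h4 : dg (YV n k)ᶜ (lowm (YV n k) (pmon a) (pmon b) (pmon d))
      = ∑ i ∈ (YV n k)ᶜ, (pmon b i - pmon a i) := by
    unfold dg
    refine Finset.sum_congr rfl fun i hi => ?_
    rw [lowm_apply, if_neg (Finset.mem_compl.mp hi)]
  rw [h4, sum_YVc, hh, Finset.card_filter]
  refine Finset.sum_congr rfl fun j _ => ?_
  by_cases hj : isY n k j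
  · simp [hj]
  · simp only [hj, not_false_iff, true_and, if_false]
    by_cases he : eg a j = eg b j
    · rw [if_neg (not_not.mpr he), Finset.sum_eq_zero]
      intro e _
      rw [pmon_apply', pmon_apply', he]; simp
    · rw [if_pos he, Finset.sum_eq_single (eg b j)]
      · rw [pmon_apply', pmon_apply', if_pos rfl, if_neg he]
      · intro e _ hne
        rw [pmon_apply', if_neg (Ne.symm hne)]; simp
      · intro h; exact absurd (Finset.mem_univ _) h

/-- balanced quadruples agree position by position -/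
theorem balanced {n : ℕ} {a b c d : Fin (n + 1) → Fin n}
    (h : pmon a + pmon c = pmon b + pmon d) (j : Fin n) :
    (eg a j = eg b j ∧ eg c j = eg d j) ∨ (eg a j = eg d j ∧ eg c j = eg b j) := by
  have h1 : ∀ e : Fin n × Fin n, (if eg a j = e then 1 else 0) + (if eg c j = e then 1 else 0)
      = (if eg b j = e then 1 else 0) + (if eg d j = e then (1 : ℕ) else 0) := by
    intro e
    have := congrArg (fun t => t (j, e)) h
    simpa only [Finsupp.add_apply, pmon_apply'] using this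
  have h2 := h1 (eg a j)
  have h3 := h1 (eg c j)
  by_cases hb : eg b j = eg a j
  · left
    refine ⟨hb.symm, ?_⟩
    by_contra hd
    have hd' : ¬ eg d j = eg c j := fun h => hd h.symm
    rw [hb] at h3
    simp only [if_true, hd', if_false] at h3
    omega
  · by_cases hd : eg d j = eg a j
    · right
      refine ⟨hd.symm, ?_⟩
      by_contra hb'
      have hb'' : ¬ eg b j = eg c j := fun h => hb' h.symm
      rw [hd] at h3
      simp only [if_true, hb'', if_false] at h3
      omega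
    · simp only [if_true, hb, hd, if_false] at h2
      omega

theorem Wt_nonneg {n : ℕ} (yy : Prop) [Decidable yy] {ry rz : ℝ} (h1 : 0 ≤ ry) (h2 : 0 ≤ rz)
    (e1 e2 e3 e4 : Fin n × Fin n) : 0 ≤ Wt yy ry rz e1 e2 e3 e4 := by
  unfold Wt
  split_ifs <;> first | exact h1 | exact h2 | exact zero_le_one | exact le_rfl

theorem prod_Wt {n k : ℕ} {a b c d : Fin (n + 1) → Fin n}
    (h : pmon a + pmon c = pmon b + pmon d) (ry rz : ℝ) :
    ∏ j : Fin n, Wt (isY n k j) ry rz (eg a j) (eg b j) (eg c j) (eg d j)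
      = ry ^ HH n k a d * rz ^ hh n k a b := by
  have h1 : ∀ j : Fin n, Wt (isY n k j) ry rz (eg a j) (eg b j) (eg c j) (eg d j)
      = (if (isY n k j ∧ eg a j = eg d j) then ry else 1) *
        (if (¬ isY n k j ∧ eg a j ≠ eg b j) then rz else 1) := by
    intro j
    unfold Wt
    rw [if_pos (balanced h j)]
    by_cases hj : isY n k j
    · simp [hj]
    · simp only [hj, if_false, false_and, not_false_iff, true_and]
      by_cases he : eg a j = eg b j <;> simp [he]
  rw [Finset.prod_congr rfl fun j _ => h1 j, Finset.prod_mul_distrib]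
  rw [Finset.prod_ite, Finset.prod_ite]
  simp only [Finset.prod_const, one_pow, mul_one]
  rfl

section expand

variable {A B C : Type*} [Fintype A] [Fintype B]

/-- expansion of the 4-cycle sum -/
theorem expand4 (P : Finset C) (M : A → B → ℕ) (I : A → B → C → ℕ)
    (hM : ∀ i j, M i j = ∑ a ∈ P, I i j a) :
    ∑ j, ∑ j', (∑ i, M i j * M i j') ^ 2
      = ∑ a ∈ P, ∑ b ∈ P, ∑ c ∈ P, ∑ d ∈ P,
          ∑ j, ∑ j', ∑ i, ∑ i', (I i j a * I i j' b) * (I i' j' c * I i' j d) := by
  have key : ∀ j j' : B, (∑ i, M i j * M i j') ^ 2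
      = ∑ a ∈ P, ∑ b ∈ P, ∑ c ∈ P, ∑ d ∈ P,
          ∑ i, ∑ i', (I i j a * I i j' b) * (I i' j' c * I i' j d) := by
    intro j j'
    have e1 : ∑ i, M i j * M i j' = ∑ a ∈ P, ∑ b ∈ P, ∑ i, I i j a * I i j' b := by
      rw [show ∑ a ∈ P, ∑ b ∈ P, ∑ i, I i j a * I i j' b
          = ∑ a ∈ P, ∑ i, ∑ b ∈ P, I i j a * I i j' b from
        Finset.sum_congr rfl fun a _ => Finset.sum_comm, Finset.sum_comm]
      refine Finset.sum_congr rfl fun i _ => ?_
      rw [hM, hM, Finset.sum_mul_sum]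
    have e2 : ∑ i, M i j * M i j' = ∑ c ∈ P, ∑ d ∈ P, ∑ i, I i j' c * I i j d := by
      rw [show ∑ a ∈ P, ∑ b ∈ P, ∑ i, I i j' a * I i j b
          = ∑ a ∈ P, ∑ i, ∑ b ∈ P, I i j' a * I i j b from
        Finset.sum_congr rfl fun a _ => Finset.sum_comm, Finset.sum_comm]
      refine Finset.sum_congr rfl fun i _ => ?_
      rw [hM, hM, Finset.sum_mul_sum, Finset.sum_comm]
      refine Finset.sum_congr rfl fun x _ => Finset.sum_congr rfl fun y _ => mul_comm _ _
    rw [sq]
    nth_rewrite 1 [e1]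
    rw [e2]
    rw [Finset.sum_mul]
    refine Finset.sum_congr rfl fun a _ => ?_
    rw [Finset.sum_mul]
    refine Finset.sum_congr rfl fun b _ => ?_
    rw [Finset.mul_sum]
    refine Finset.sum_congr rfl fun c _ => ?_
    rw [Finset.mul_sum]
    refine Finset.sum_congr rfl fun d _ => ?_
    rw [Finset.sum_mul_sum]
  have swap : ∀ (X : Type _) [Fintype X] (F : X → C → C → C → C → ℕ),
      ∑ x, ∑ a ∈ P, ∑ b ∈ P, ∑ c ∈ P, ∑ d ∈ P, F x a b c d
        = ∑ a ∈ P, ∑ b ∈ P, ∑ c ∈ P, ∑ d ∈ P, ∑ x, F x a b c d := by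
    intro X _ F
    rw [Finset.sum_comm]
    refine Finset.sum_congr rfl fun a _ => ?_
    rw [Finset.sum_comm]
    refine Finset.sum_congr rfl fun b _ => ?_
    rw [Finset.sum_comm]
    refine Finset.sum_congr rfl fun c _ => ?_
    rw [Finset.sum_comm]
  calc ∑ j, ∑ j', (∑ i, M i j * M i j') ^ 2
      = ∑ j, ∑ j', ∑ a ∈ P, ∑ b ∈ P, ∑ c ∈ P, ∑ d ∈ P,
          ∑ i, ∑ i', (I i j a * I i j' b) * (I i' j' c * I i' j d) :=
        Finset.sum_congr rfl fun j _ => Finset.sum_congr rfl fun j' _ => key j j'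
    _ = ∑ j, ∑ a ∈ P, ∑ b ∈ P, ∑ c ∈ P, ∑ d ∈ P,
          ∑ j', ∑ i, ∑ i', (I i j a * I i j' b) * (I i' j' c * I i' j d) :=
        Finset.sum_congr rfl fun j _ => swap B _
    _ = _ := swap B _

end expand

section cyc

variable {ι : Type*} [Fintype ι] [DecidableEq ι]

theorem Ed.right_unique {Y : Finset ι} {m m1 m2 t : ι →₀ ℕ} (h1 : Ed Y m m1 t) (h2 : Ed Y m m2 t) :
    m1 = m2 := by
  ext i
  have e1 := h1 i; have e2 := h2 i
  by_cases hi : i ∈ Y
  · simp only [hi, if_true] at e1 e2; omega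
  · simp only [hi, if_false] at e1 e2; omega

theorem Ed.left_unique {Y : Finset ι} {m m1 m2 t : ι →₀ ℕ} (h1 : Ed Y m1 m t) (h2 : Ed Y m2 m t) :
    m1 = m2 := by
  ext i
  have e1 := h1 i; have e2 := h2 i
  by_cases hi : i ∈ Y
  · simp only [hi, if_true] at e1 e2; omega
  · simp only [hi, if_false] at e1 e2; omega

theorem lowm_le {Y : Finset ι} {m m' m1 m1' A B D : ι →₀ ℕ} (h1 : Ed Y m m1 A) (h2 : Ed Y m' m1 B)
    (h3 : Ed Y m m1' D) : lowm Y A B D ≤ m := by
  intro i
  have e1 := h1 i; have e2 := h2 i; have e3 := h3 i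
  rw [lowm_apply]
  by_cases hi : i ∈ Y
  · simp only [hi, if_true] at e1 e2 e3 ⊢; omega
  · simp only [hi, if_false] at e1 e2 e3 ⊢; omega

open Classical in
/-- the indicator of an edge -/
def EI (Y : Finset ι) (m m' t : ι →₀ ℕ) : ℕ := if Ed Y m m' t then 1 else 0

theorem EI_le (Y : Finset ι) (m m' t : ι →₀ ℕ) : EI Y m m' t ≤ 1 := by
  unfold EI; split_ifs <;> omega

theorem EI_ne {Y : Finset ι} {m m' t : ι →₀ ℕ} (h : EI Y m m' t ≠ 0) : Ed Y m m' t := by
  unfold EI at h; by_contra h'; rw [if_neg h'] at h; exact h rfl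

theorem cyc_inner (Y : Finset ι) (S S' : Finset (ι →₀ ℕ)) (A B C D m : ι →₀ ℕ) [Decidable (lowm Y A B D ≤ m)] :
    ∑ j' : S, ∑ i : S', ∑ i' : S',
      (EI Y m i.1 A * EI Y j'.1 i.1 B) * (EI Y j'.1 i'.1 C * EI Y m i'.1 D)
      ≤ if lowm Y A B D ≤ m then 1 else 0 := by
  have hz : ∀ (j' : S) (i i' : S'),
      (EI Y m i.1 A * EI Y j'.1 i.1 B) * (EI Y j'.1 i'.1 C * EI Y m i'.1 D) ≠ 0 →
      Ed Y m i.1 A ∧ Ed Y j'.1 i.1 B ∧ Ed Y m i'.1 D := by
    intro j' i i' h
    refine ⟨EI_ne ?_, EI_ne ?_, EI_ne ?_⟩ <;> (intro h0; apply h; rw [h0]; simp)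
  by_cases hex : ∃ (j' : S) (i i' : S'),
      (EI Y m i.1 A * EI Y j'.1 i.1 B) * (EI Y j'.1 i'.1 C * EI Y m i'.1 D) ≠ 0
  · obtain ⟨j0, i0, i0', h0⟩ := hex
    obtain ⟨g1, g2, g3⟩ := hz _ _ _ h0
    rw [if_pos (lowm_le g1 g2 g3)]
    have huniq : ∀ (j' : S) (i i' : S'),
      (EI Y m i.1 A * EI Y j'.1 i.1 B) * (EI Y j'.1 i'.1 C * EI Y m i'.1 D) ≠ 0 →
        j' = j0 ∧ i = i0 ∧ i' = i0' := by
      intro j' i i' h
      obtain ⟨k1, k2, k3⟩ := hz _ _ _ h
      have hi : i = i0 := Subtype.ext (k1.right_unique g1)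
      subst hi
      exact ⟨Subtype.ext (k2.left_unique g2), rfl, Subtype.ext (k3.right_unique g3)⟩
    rw [Finset.sum_eq_single j0, Finset.sum_eq_single i0, Finset.sum_eq_single i0']
    · calc _ ≤ (1 * 1) * (1 * 1) := by
            gcongr <;> exact EI_le _ _ _ _
        _ = 1 := by norm_num
    · intro i' _ hne; by_contra h; exact hne (huniq _ _ _ h).2.2
    · intro h; exact absurd (Finset.mem_univ _) h
    · intro i _ hne
      refine Finset.sum_eq_zero fun i' _ => ?_
      by_contra h; exact hne (huniq _ _ _ h).2.1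
    · intro h; exact absurd (Finset.mem_univ _) h
    · intro j' _ hne
      refine Finset.sum_eq_zero fun i _ => Finset.sum_eq_zero fun i' _ => ?_
      by_contra h; exact hne (huniq _ _ _ h).1
    · intro h; exact absurd (Finset.mem_univ _) h
  · push Not at hex
    have : ∑ j' : S, ∑ i : S', ∑ i' : S',
      (EI Y m i.1 A * EI Y j'.1 i.1 B) * (EI Y j'.1 i'.1 C * EI Y m i'.1 D) = 0 :=
      Finset.sum_eq_zero fun j' _ => Finset.sum_eq_zero fun i _ => Finset.sum_eq_zero fun i' _ =>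
        hex j' i i'
    rw [this]; exact Nat.zero_le _

theorem cyc_card (Y : Finset ι) (S S' : Finset (ι →₀ ℕ)) (A B C D : ι →₀ ℕ) :
    ∑ j : S, ∑ j' : S, ∑ i : S', ∑ i' : S',
      (EI Y j.1 i.1 A * EI Y j'.1 i.1 B) * (EI Y j'.1 i'.1 C * EI Y j.1 i'.1 D)
      ≤ (S.filter (fun m => lowm Y A B D ≤ m)).card := by
  rw [Finset.card_filter, ← Finset.sum_coe_sort S (fun m => if lowm Y A B D ≤ m then 1 else 0)]
  exact Finset.sum_le_sum fun j _ => cyc_inner Y S S' A B C D j.1

theorem cyc_zero (Y : Finset ι) {A B C D : ι →₀ ℕ} (h : A + C ≠ B + D) (m m' m1 m1' : ι →₀ ℕ) :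
    (EI Y m m1 A * EI Y m' m1 B) * (EI Y m' m1' C * EI Y m m1' D) = 0 := by
  by_contra hne
  have h1 : Ed Y m m1 A := EI_ne (by intro h0; apply hne; rw [h0]; simp)
  have h2 : Ed Y m' m1 B := EI_ne (by intro h0; apply hne; rw [h0]; simp)
  have h3 : Ed Y m' m1' C := EI_ne (by intro h0; apply hne; rw [h0]; simp)
  have h4 : Ed Y m m1' D := EI_ne (by intro h0; apply hne; rw [h0]; simp)
  apply h
  ext x
  have e1 := h1 x; have e2 := h2 x; have e3 := h3 x; have e4 := h4 x
  simp only [Finsupp.add_apply]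
  by_cases hx : x ∈ Y
  · simp only [hx, if_true] at e1 e2 e3 e4; omega
  · simp only [hx, if_false] at e1 e2 e3 e4; omega

end cyc

/-- the bound for one quadruple of paths -/
theorem quad_bound {N k p l : ℕ} (hk1 : 1 ≤ k) (hk : k ≤ N) (hp : 2 * k ≤ p) (hl : N + 1 ≤ l)
    (p' l' : ℕ) (a b c d : Fin (N + 2) → Fin (N + 1)) :
    ((∑ j : Sec (YV (N + 1) k) p l, ∑ j' : Sec (YV (N + 1) k) p l,
      ∑ i : Sec (YV (N + 1) k) p' l', ∑ i' : Sec (YV (N + 1) k) p' l',
      (EI (YV (N + 1) k) j.1 i.1 (pmon a) * EI (YV (N + 1) k) j'.1 i.1 (pmon b)) *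
      (EI (YV (N + 1) k) j'.1 i'.1 (pmon c) * EI (YV (N + 1) k) j.1 i'.1 (pmon d)) : ℕ) : ℝ)
    ≤ Nat.multichoose (NY (N + 1) k) (p - 2 * k) * Nat.multichoose (NZ (N + 1) k) l
        * ∏ j : Fin (N + 1), Wt (isY (N + 1) k j) (rhoY (N + 1) k p) (rhoZ (N + 1) k l)
          (eg a j) (eg b j) (eg c j) (eg d j) := by
  have hry : 0 ≤ rhoY (N + 1) k p := by unfold rhoY; positivity
  have hrz : 0 ≤ rhoZ (N + 1) k l := by unfold rhoZ; positivity
  by_cases hbal : pmon a + pmon c = pmon b + pmon d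
  · rw [prod_Wt hbal]
    have h1 := cyc_card (YV (N + 1) k) (Sec (YV (N + 1) k) p l) (Sec (YV (N + 1) k) p' l')
      (pmon a) (pmon b) (pmon c) (pmon d)
    have h2 := card_Sec_filter_le (YV (N + 1) k) p l
      (lowm (YV (N + 1) k) (pmon a) (pmon b) (pmon d))
    have h3 := dgY_lowm (n := N + 1) (k := k) (by omega) (by omega) a b d
    have h4 := dgZ_lowm (n := N + 1) (k := k) a b d
    rw [card_YV (N + 1) k (by omega) (by omega), card_YV_compl (N + 1) k (by omega) (by omega), h4,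
      show p - dg (YV (N + 1) k) (lowm (YV (N + 1) k) (pmon a) (pmon b) (pmon d))
        = (p - 2 * k) + HH (N + 1) k a d by omega] at h2
    have hNY : 1 ≤ NY (N + 1) k := by
      unfold NY; exact Nat.one_le_iff_ne_zero.mpr (by positivity)
    have hNZ : 1 ≤ NZ (N + 1) k := by
      unfold NZ
      have : 1 ≤ N + 1 - k := by omega
      exact Nat.one_le_iff_ne_zero.mpr (Nat.mul_ne_zero (by omega) (by positivity))
    have hhl : hh (N + 1) k a b ≤ l := by
      have : hh (N + 1) k a b ≤ (Finset.univ : Finset (Fin (N + 1))).card := by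
        unfold hh; exact Finset.card_filter_le _ _
      simp only [Finset.card_univ, Fintype.card_fin] at this
      omega
    have h5 := mc_up' (NY (N + 1) k) (p - 2 * k) (HH (N + 1) k a d) hNY
    have h6 := mc_down' (NZ (N + 1) k) l (hh (N + 1) k a b) hNZ (by omega) hhl
    have h7 : (((NY (N + 1) k + (p - 2 * k) : ℕ) : ℝ) / ((p - 2 * k + 1 : ℕ) : ℝ))
        = rhoY (N + 1) k p := by
      unfold rhoY
      rw [show NY (N + 1) k + (p - 2 * k) = NY (N + 1) k + p - 2 * k by omega]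
    rw [h7] at h5
    have h8 : ((l : ℝ) / ((NZ (N + 1) k + l - 1 : ℕ) : ℝ)) = rhoZ (N + 1) k l := rfl
    rw [h8] at h6
    calc _ ≤ (((Nat.multichoose (NY (N + 1) k) ((p - 2 * k) + HH (N + 1) k a d)
          * Nat.multichoose (NZ (N + 1) k) (l - hh (N + 1) k a b) : ℕ)) : ℝ) := by
          exact_mod_cast h1.trans h2
      _ = (Nat.multichoose (NY (N + 1) k) ((p - 2 * k) + HH (N + 1) k a d) : ℝ)
          * Nat.multichoose (NZ (N + 1) k) (l - hh (N + 1) k a b) := by push_cast; rfl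
      _ ≤ (rhoY (N + 1) k p ^ HH (N + 1) k a d * Nat.multichoose (NY (N + 1) k) (p - 2 * k))
          * (rhoZ (N + 1) k l ^ hh (N + 1) k a b * Nat.multichoose (NZ (N + 1) k) l) :=
          mul_le_mul h5 h6 (by positivity) (by positivity)
      _ = _ := by ring
  · rw [Finset.sum_eq_zero fun j _ => Finset.sum_eq_zero fun j' _ => Finset.sum_eq_zero fun i _ =>
      Finset.sum_eq_zero fun i' _ => cyc_zero _ hbal _ _ _ _]
    have : 0 ≤ ∏ j : Fin (N + 1), Wt (isY (N + 1) k j) (rhoY (N + 1) k p) (rhoZ (N + 1) k l)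
      (eg a j) (eg b j) (eg c j) (eg d j) := Finset.prod_nonneg fun j _ => Wt_nonneg _ hry hrz _ _ _ _
    rw [Nat.cast_zero]
    positivity

theorem trace_two (N k p l : ℕ) (hk1 : 1 ≤ k) (hk : k ≤ N) (hp : 2 * k ≤ p) (hl : N + 1 ≤ l) :
    ∑ j, ∑ j', (∑ i, ((PM N k p l (p - k) (l + (N + 1 - k)) i j : ℕ) : ℝ)
        * ((PM N k p l (p - k) (l + (N + 1 - k)) i j' : ℕ) : ℝ)) ^ 2
      ≤ Nat.multichoose (NY (N + 1) k) (p - 2 * k) * Nat.multichoose (NZ (N + 1) k) l
          * Zsum N k (rhoY (N + 1) k p) (rhoZ (N + 1) k l) := by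
  classical
  have hM : ∀ i j, PM N k p l (p - k) (l + (N + 1 - k)) i j
      = ∑ a ∈ Pth N, (fun (i : Sec (YV (N + 1) k) (p - k) (l + (N + 1 - k)))
          (j : Sec (YV (N + 1) k) p l) (a : Fin (N + 2) → Fin (N + 1)) =>
            EI (YV (N + 1) k) j.1 i.1 (pmon a)) i j a := by
    intro i j
    simp only [PM, Matrix.of_apply]
    rw [Finset.card_filter]
    refine Finset.sum_congr rfl fun a _ => ?_
    unfold EI
    refine if_congr ?_ rfl rfl
    exact ed_iff _ _ _ _
  have hcast : ∑ j, ∑ j', (∑ i, ((PM N k p l (p - k) (l + (N + 1 - k)) i j : ℕ) : ℝ)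
        * ((PM N k p l (p - k) (l + (N + 1 - k)) i j' : ℕ) : ℝ)) ^ 2
      = ((∑ j, ∑ j', (∑ i, PM N k p l (p - k) (l + (N + 1 - k)) i j
        * PM N k p l (p - k) (l + (N + 1 - k)) i j') ^ 2 : ℕ) : ℝ) := by
    simp only [Nat.cast_sum, Nat.cast_pow, Nat.cast_mul]
  rw [hcast, expand4 (Pth N) _ _ hM]
  unfold Zsum
  rw [Finset.mul_sum, Nat.cast_sum]
  refine Finset.sum_le_sum fun a ha => ?_
  rw [Finset.mul_sum, Nat.cast_sum]
  refine Finset.sum_le_sum fun b hb => ?_
  rw [Finset.mul_sum, Nat.cast_sum]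
  refine Finset.sum_le_sum fun c hc => ?_
  rw [Finset.mul_sum, Nat.cast_sum]
  refine Finset.sum_le_sum fun d hd => ?_
  exact quad_bound hk1 hk hp hl _ _ a b c d

end

end Crest.Agent.D5
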