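import Mathlib
import Crest.Agent.S504.Defs

/-! # S0504, L5: the transfer recursion bound for `Zsum` -/

set_option autoImplicit false

namespace Crest.Agent.D5

open Finset

noncomputable section

namespace Tr

theorem path_bound {T : Type*} [Fintype T] [DecidableEq T] (w : ℕ → T → T → ℝ)
    (hw : ∀ i s t, 0 ≤ w i s t) (φ : ℕ → T → ℝ) (C : ℕ → ℝ) (hC : ∀ i, 0 ≤ C i) (s0 : T) (N : ℕ)
    (h : ∀ i < N, ∀ s, ∑ t, w i s t * φ (i + 1) t ≤ C i * φ i s) :
    ∑ p : Fin (N + 1) → T, (if p 0 = s0 then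
      (∏ j : Fin N, w j (p j.castSucc) (p j.succ)) * φ N (p (Fin.last N)) else 0)
      ≤ (∏ i ∈ range N, C i) * φ 0 s0 := by
  induction N with
  | zero =>
    have : (∑ p : Fin (0 + 1) → T, (if p 0 = s0 then
      (∏ j : Fin 0, w j (p j.castSucc) (p j.succ)) * φ 0 (p (Fin.last 0)) else 0)) = φ 0 s0 := by
      rw [Fintype.sum_eq_single (fun _ => s0)]
      · simp
      · intro p hp
        have : p 0 ≠ s0 := by
          intro h0
          apply hp
          funext i
          have : i = 0 := Fin.ext (by omega)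
          rw [this, h0]
        rw [if_neg this]
    rw [this]; simp
  | succ N ih =>
    have e := Fin.snocEquiv (fun _ : Fin (N + 1 + 1) => T)
    rw [← (Fin.snocEquiv (fun _ : Fin (N + 1 + 1) => T)).sum_comp]
    rw [Fintype.sum_prod_type_right]
    have key : ∀ p : Fin (N + 1) → T,
        (∑ t : T, (if ((Fin.snocEquiv (fun _ : Fin (N + 1 + 1) => T)) (t, p)) 0 = s0 then
          (∏ j : Fin (N + 1), w j (((Fin.snocEquiv (fun _ : Fin (N + 1 + 1) => T)) (t, p)) j.castSucc)
            (((Fin.snocEquiv (fun _ : Fin (N + 1 + 1) => T)) (t, p)) j.succ)) *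
            φ (N + 1) (((Fin.snocEquiv (fun _ : Fin (N + 1 + 1) => T)) (t, p)) (Fin.last (N + 1)))
            else 0))
        ≤ C N * (if p 0 = s0 then
          (∏ j : Fin N, w j (p j.castSucc) (p j.succ)) * φ N (p (Fin.last N)) else 0) := by
      intro p
      have h0 : ∀ t : T, ((Fin.snocEquiv (fun _ : Fin (N + 1 + 1) => T)) (t, p)) 0 = p 0 := by
        intro t
        have : (0 : Fin (N + 1 + 1)) = Fin.castSucc 0 := rfl
        rw [this]
        simp only [Fin.snocEquiv_apply, Fin.snoc_castSucc]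
      have hl : ∀ t : T,
          ((Fin.snocEquiv (fun _ : Fin (N + 1 + 1) => T)) (t, p)) (Fin.last (N + 1)) = t := by
        intro t
        simp only [Fin.snocEquiv_apply, Fin.snoc_last]
      have hp : ∀ t : T, (∏ j : Fin (N + 1),
          w j (((Fin.snocEquiv (fun _ : Fin (N + 1 + 1) => T)) (t, p)) j.castSucc)
            (((Fin.snocEquiv (fun _ : Fin (N + 1 + 1) => T)) (t, p)) j.succ))
          = (∏ j : Fin N, w j (p j.castSucc) (p j.succ)) * w N (p (Fin.last N)) t := by
        intro t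
        rw [Fin.prod_univ_castSucc]
        congr 1
        · apply Finset.prod_congr rfl
          intro j _
          have h1 : (Fin.castSucc j).succ = Fin.castSucc (j.succ) := rfl
          rw [h1]
          simp only [Fin.snocEquiv_apply, Fin.snoc_castSucc, Fin.val_castSucc]
        · simp only [Fin.snocEquiv_apply, Fin.snoc_castSucc, Fin.val_last, Fin.succ_last,
            Fin.snoc_last]
      by_cases hs : p 0 = s0
      · simp only [h0, hl, hp, if_pos hs]
        have hP : 0 ≤ ∏ j : Fin N, w j (p j.castSucc) (p j.succ) :=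
          Finset.prod_nonneg fun j _ => hw _ _ _
        calc ∑ t, (∏ j : Fin N, w j (p j.castSucc) (p j.succ)) * w N (p (Fin.last N)) t * φ (N + 1) t
            = (∏ j : Fin N, w j (p j.castSucc) (p j.succ)) *
              ∑ t, w N (p (Fin.last N)) t * φ (N + 1) t := by
              rw [Finset.mul_sum]; apply Finset.sum_congr rfl; intro t _; ring
          _ ≤ (∏ j : Fin N, w j (p j.castSucc) (p j.succ)) * (C N * φ N (p (Fin.last N))) :=
              mul_le_mul_of_nonneg_left (h N (Nat.lt_succ_self N) _) hP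
          _ = _ := by ring
      · simp only [h0, if_neg hs]; simp
    calc _ ≤ ∑ p : Fin (N + 1) → T, C N * (if p 0 = s0 then
          (∏ j : Fin N, w j (p j.castSucc) (p j.succ)) * φ N (p (Fin.last N)) else 0) :=
          Finset.sum_le_sum fun p _ => key p
      _ = C N * ∑ p : Fin (N + 1) → T, (if p 0 = s0 then
          (∏ j : Fin N, w j (p j.castSucc) (p j.succ)) * φ N (p (Fin.last N)) else 0) := by
          rw [Finset.mul_sum]
      _ ≤ C N * ((∏ i ∈ range N, C i) * φ 0 s0) :=
          mul_le_mul_of_nonneg_left (ih fun i hi => h i (Nat.lt_succ_of_lt hi)) (hC N)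
      _ = _ := by rw [Finset.prod_range_succ]; ring

theorem rnd_zero (n k : ℕ) (hn : 1 ≤ n) : rnd n k 0 = 0 := by
  unfold rnd
  apply Nat.div_eq_of_lt
  omega

theorem rnd_le_succ (n k i : ℕ) : rnd n k i ≤ rnd n k (i + 1) := by
  unfold rnd
  apply Nat.div_le_div_right
  nlinarith

theorem rnd_succ_le (n k i : ℕ) (hn : 1 ≤ n) (hk : k ≤ n) : rnd n k (i + 1) ≤ rnd n k i + 1 := by
  unfold rnd
  rw [← Nat.add_div_right _ (by omega : 0 < 2 * n)]
  apply Nat.div_le_div_right
  nlinarith

theorem rnd_le (n k i : ℕ) (hn : 1 ≤ n) (hk : k ≤ n) : rnd n k i ≤ i := by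
  induction i with
  | zero => rw [rnd_zero n k hn]
  | succ i ih => exact (rnd_succ_le n k i hn hk).trans (by omega)

/-- the partial product -/
def PiW (n k : ℕ) (ry rz : ℝ) (i : ℕ) : ℝ := ry ^ (rnd n k i) * rz ^ (i - rnd n k i)

theorem PiW_zero (n k : ℕ) (ry rz : ℝ) (hn : 1 ≤ n) : PiW n k ry rz 0 = 1 := by
  unfold PiW
  rw [rnd_zero n k hn]; simp

theorem PiW_succ (n k : ℕ) (ry rz : ℝ) (hn : 1 ≤ n) (hk : k ≤ n) (i : ℕ) :
    PiW n k ry rz (i + 1) = (if isY n k i then ry else rz) * PiW n k ry rz i := by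
  unfold PiW
  have h1 := rnd_le_succ n k i
  have h2 := rnd_succ_le n k i hn hk
  have h3 := rnd_le n k i hn hk
  by_cases h : isY n k i
  · have h4 : rnd n k (i + 1) = rnd n k i + 1 := by
      unfold isY at h; omega
    rw [if_pos h, h4, show i + 1 - (rnd n k i + 1) = i - rnd n k i by omega, pow_succ]
    ring
  · have h4 : rnd n k (i + 1) = rnd n k i := by
      unfold isY at h; omega
    rw [if_neg h, h4, show i + 1 - rnd n k i = (i - rnd n k i) + 1 by omega, pow_succ]
    ring

theorem PiW_pos (n k : ℕ) (ry rz : ℝ) (h1 : 0 < ry) (h2 : 0 < rz) (i : ℕ) :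
    0 < PiW n k ry rz i := by
  unfold PiW; positivity

section States

variable {n : ℕ}

/-- `E` indicator -/
def iE (s : Fin n × Fin n × Fin n × Fin n) : ℝ :=
  if s.1 = s.2.1 ∧ s.2.2.1 = s.2.2.2 then 1 else 0

/-- `X` indicator -/
def iX (s : Fin n × Fin n × Fin n × Fin n) : ℝ :=
  if s.1 = s.2.2.2 ∧ s.2.2.1 = s.2.1 then 1 else 0

/-- indicator of the diagonal -/
def iD (s : Fin n × Fin n × Fin n × Fin n) : ℝ :=
  if s.1 = s.2.1 ∧ s.2.2.1 = s.2.2.2 ∧ s.1 = s.2.2.2 then 1 else 0

theorem iE_nonneg (s : Fin n × Fin n × Fin n × Fin n) : 0 ≤ iE s := by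
  unfold iE; split_ifs <;> norm_num

theorem iX_nonneg (s : Fin n × Fin n × Fin n × Fin n) : 0 ≤ iX s := by
  unfold iX; split_ifs <;> norm_num

theorem iD_nonneg (s : Fin n × Fin n × Fin n × Fin n) : 0 ≤ iD s := by
  unfold iD; split_ifs <;> norm_num

/-- the potential -/
def phi (P : ℝ) (s : Fin n × Fin n × Fin n × Fin n) : ℝ := iE s + iX s / P

theorem phi_nonneg {P : ℝ} (hP : 0 < P) (s : Fin n × Fin n × Fin n × Fin n) : 0 ≤ phi P s := by
  unfold phi
  have := iE_nonneg s
  have := div_nonneg (iX_nonneg s) hP.le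
  linarith

theorem sum_iE : ∑ s : Fin n × Fin n × Fin n × Fin n, iE s = (n : ℝ) ^ 2 := by
  unfold iE
  simp only [Fintype.sum_prod_type]
  have h : ∀ x y z w : Fin n, (if x = y ∧ z = w then (1:ℝ) else 0)
      = (if x = y then 1 else 0) * (if z = w then 1 else 0) := by
    intro x y z w
    by_cases h1 : x = y <;> by_cases h2 : z = w <;> simp [h1, h2]
  simp only [h, ← Finset.mul_sum]
  simp
  ring

theorem sum_iX : ∑ s : Fin n × Fin n × Fin n × Fin n, iX s = (n : ℝ) ^ 2 := by
  unfold iX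
  simp only [Fintype.sum_prod_type]
  have h : ∀ x y z w : Fin n, (if x = w ∧ z = y then (1:ℝ) else 0)
      = (if z = y then 1 else 0) * (if x = w then 1 else 0) := by
    intro x y z w
    by_cases h1 : x = w <;> by_cases h2 : z = y <;> simp [h1, h2]
  simp only [h, ← Finset.mul_sum]
  simp
  ring

theorem sum_iD : ∑ s : Fin n × Fin n × Fin n × Fin n, iD s = (n : ℝ) := by
  unfold iD
  simp only [Fintype.sum_prod_type]
  have h : ∀ x y z w : Fin n, (if x = y ∧ z = w ∧ x = w then (1:ℝ) else 0)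
      = (if x = y then 1 else 0) * ((if x = z then 1 else 0) * (if z = w then 1 else 0)) := by
    intro x y z w
    by_cases h1 : x = y <;> by_cases h2 : z = w <;> by_cases h3 : x = z <;>
      simp_all
  simp only [h, ← Finset.mul_sum]
  simp

/-- the transition weight -/
def wt (yy : Prop) [Decidable yy] (ry rz : ℝ) (s t : Fin n × Fin n × Fin n × Fin n) : ℝ :=
  Wt yy ry rz (s.1, t.1) (s.2.1, t.2.1) (s.2.2.1, t.2.2.1) (s.2.2.2, t.2.2.2)

theorem wt_nonneg (yy : Prop) [Decidable yy] {ry rz : ℝ} (h1 : 0 ≤ ry) (h2 : 0 ≤ rz)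
    (s t : Fin n × Fin n × Fin n × Fin n) : 0 ≤ wt yy ry rz s t := by
  unfold wt Wt
  split_ifs <;> norm_num <;> assumption

theorem wt_mul_phi_le (yy : Prop) [Decidable yy] {ry rz P Bd : ℝ} (hry : 1 ≤ ry) (hrz : 0 < rz)
    (hP : 0 < P) (hB : ry ≤ Bd) (hB1 : 1 ≤ Bd)
    (hP2 : (if yy then ry else rz) * P ≤ Bd) (hP3 : 1 ≤ Bd * ((if yy then ry else rz) * P))
    (s t : Fin n × Fin n × Fin n × Fin n) :
    wt yy ry rz s t * phi ((if yy then ry else rz) * P) t
      ≤ iE s * (iE t + (1 + Bd) * iD t) + iX s / P * (iX t + (1 + Bd) * iD t) := by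
  have hR0 : 0 ≤ iE s * (iE t + (1 + Bd) * iD t) :=
    mul_nonneg (iE_nonneg _) (add_nonneg (iE_nonneg _) (mul_nonneg (by linarith) (iD_nonneg _)))
  have hR1 : 0 ≤ iX s / P * (iX t + (1 + Bd) * iD t) :=
    mul_nonneg (div_nonneg (iX_nonneg _) hP.le)
      (add_nonneg (iX_nonneg _) (mul_nonneg (by linarith) (iD_nonneg _)))
  obtain ⟨a, b, c, d⟩ := s
  obtain ⟨a', b', c', d'⟩ := t
  have hω : 0 < (if yy then ry else rz) := by split_ifs <;> linarith
  have hωB : (if yy then ry else rz) ≤ Bd / P := by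
    rw [le_div_iff₀ hP]; exact hP2
  have hωP : (if yy then ry else rz) / ((if yy then ry else rz) * P) = 1 / P := by
    field_simp
  have hP' : 0 < (if yy then ry else rz) * P := mul_pos hω hP
  have h1P : 0 < 1 / P := by positivity
  have h1P' : 1 / ((if yy then ry else rz) * P) ≤ Bd := by
    rw [div_le_iff₀ hP']; exact hP3
  by_cases hA : a = b ∧ a' = b' ∧ c = d ∧ c' = d'
  · obtain ⟨rfl, rfl, rfl, rfl⟩ := hA
    by_cases hS : a = c ∧ a' = c'
    · obtain ⟨rfl, rfl⟩ := hS
      have hw : wt yy ry rz (a, a, a, a) (a', a', a', a') = if yy then ry else 1 := by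
        unfold wt Wt; simp
      have e1 : iE (a, a, a, a) = 1 := by simp [iE]
      have e2 : iX (a, a, a, a) = 1 := by simp [iX]
      have e3 : iE (a', a', a', a') = 1 := by simp [iE]
      have e4 : iX (a', a', a', a') = 1 := by simp [iX]
      have e5 : iD (a', a', a', a') = 1 := by simp [iD]
      rw [hw]
      unfold phi
      rw [e1, e2, e3, e4, e5]
      by_cases hy : yy
      · simp only [if_pos hy] at *
        have : ry * (1 + 1 / (ry * P)) = ry + 1 / P := by
          field_simp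
        rw [this]
        nlinarith
      · simp only [if_neg hy] at *
        nlinarith
    · have hw : wt yy ry rz (a, a, c, c) (a', a', c', c') = 1 := by
        unfold wt Wt
        have : ¬ ((a, a') = (c, c')) := by
          intro h; apply hS; simpa using h
        simp [this]
      have e1 : iE (a, a, c, c) = 1 := by simp [iE]
      have e3 : iE (a', a', c', c') = 1 := by simp [iE]
      have e45 : iX (a', a', c', c') = iD (a', a', c', c') := by
        unfold iX iD
        by_cases h : a' = c'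
        · simp [h]
        · simp [h]
      rw [hw]
      unfold phi
      rw [e1, e3, e45]
      have hD := iD_nonneg (a', a', c', c')
      have : iD (a', a', c', c') / ((if yy then ry else rz) * P)
          ≤ iD (a', a', c', c') * Bd := by
        rw [div_eq_mul_one_div]
        exact mul_le_mul_of_nonneg_left h1P' hD
      rw [e45] at hR1
      have h9 : 1 * (1 + (1 + Bd) * iD (a', a', c', c'))
          = 1 + iD (a', a', c', c') + iD (a', a', c', c') * Bd := by ring
      rw [h9]
      linarith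
  · by_cases hX : a = d ∧ a' = d' ∧ c = b ∧ c' = b'
    · obtain ⟨rfl, rfl, rfl, rfl⟩ := hX
      have hne : ¬ ((a, a') = (c, c')) := by
        intro h
        simp only [Prod.mk.injEq] at h
        apply hA
        obtain ⟨rfl, rfl⟩ := h
        exact ⟨rfl, rfl, rfl, rfl⟩
      have hw : wt yy ry rz (a, c, c, a) (a', c', c', a') = if yy then ry else rz := by
        unfold wt Wt
        simp [hne]
      have e1 : iX (a, c, c, a) = 1 := by simp [iX]
      have e3 : iX (a', c', c', a') = 1 := by simp [iX]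
      have e45 : iE (a', c', c', a') = iD (a', c', c', a') := by
        unfold iE iD
        by_cases h : a' = c'
        · simp [h]
        · simp [h]
      rw [hw]
      unfold phi
      rw [e1, e3, e45]
      have hD := iD_nonneg (a', c', c', a')
      have h5 : (if yy then ry else rz) * (iD (a', c', c', a') + 1 / ((if yy then ry else rz) * P))
          = (if yy then ry else rz) * iD (a', c', c', a') + 1 / P := by
        rw [mul_add, ← hωP]; ring
      rw [h5]
      have h6 : (if yy then ry else rz) * iD (a', c', c', a') ≤ Bd / P * iD (a', c', c', a') :=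
        mul_le_mul_of_nonneg_right hωB hD
      have h7 : 1 / P * (1 + (1 + Bd) * iD (a', c', c', a'))
          = 1 / P + Bd / P * iD (a', c', c', a') + 1 / P * iD (a', c', c', a') := by
        ring
      rw [h7]
      have h8 : 0 ≤ 1 / P * iD (a', c', c', a') := mul_nonneg h1P.le hD
      rw [e45] at hR0
      linarith
    · have hw : wt yy ry rz (a, b, c, d) (a', b', c', d') = 0 := by
        unfold wt Wt
        rw [if_neg]
        rintro (h | h)
        · simp only [Prod.mk.injEq] at h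
          exact hA ⟨h.1.1, h.1.2, h.2.1, h.2.2⟩
        · simp only [Prod.mk.injEq] at h
          exact hX ⟨h.1.1, h.1.2, h.2.1, h.2.2⟩
      rw [hw, zero_mul]
      linarith

theorem wt_le (yy : Prop) [Decidable yy] {ry rz P Bd : ℝ} (hry : 1 ≤ ry) (hrz : 0 < rz)
    (hP : 0 < P) (hB : ry ≤ Bd) (hB1 : 1 ≤ Bd)
    (hP2 : (if yy then ry else rz) * P ≤ Bd)
    (s t : Fin n × Fin n × Fin n × Fin n) :
    wt yy ry rz s t ≤ Bd * phi P s := by
  have hR0 : 0 ≤ phi P s := phi_nonneg hP s
  obtain ⟨a, b, c, d⟩ := s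
  obtain ⟨a', b', c', d'⟩ := t
  have hω : 0 < (if yy then ry else rz) := by split_ifs <;> linarith
  have hωB : (if yy then ry else rz) ≤ Bd / P := by
    rw [le_div_iff₀ hP]; exact hP2
  have h1P : 0 < 1 / P := by positivity
  by_cases hA : a = b ∧ a' = b' ∧ c = d ∧ c' = d'
  · obtain ⟨rfl, rfl, rfl, rfl⟩ := hA
    have e1 : iE (a, a, c, c) = 1 := by simp [iE]
    have hw : wt yy ry rz (a, a, c, c) (a', a', c', c') ≤ Bd := by
      unfold wt Wt
      simp only [true_or, and_self, if_true]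
      split_ifs <;> linarith
    unfold phi
    rw [e1]
    have h2 : 0 ≤ iX (a, a, c, c) / P := div_nonneg (iX_nonneg _) hP.le
    nlinarith
  · by_cases hX : a = d ∧ a' = d' ∧ c = b ∧ c' = b'
    · obtain ⟨rfl, rfl, rfl, rfl⟩ := hX
      have hne : ¬ ((a, a') = (c, c')) := by
        intro h
        simp only [Prod.mk.injEq] at h
        apply hA
        obtain ⟨rfl, rfl⟩ := h
        exact ⟨rfl, rfl, rfl, rfl⟩
      have hw : wt yy ry rz (a, c, c, a) (a', c', c', a') = if yy then ry else rz := by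
        unfold wt Wt
        simp [hne]
      have e1 : iX (a, c, c, a) = 1 := by simp [iX]
      rw [hw]
      unfold phi
      rw [e1]
      have h2 : 0 ≤ iE (a, c, c, a) := iE_nonneg _
      have h3 : Bd * (iE (a, c, c, a) + 1 / P) = Bd * iE (a, c, c, a) + Bd / P := by ring
      rw [h3]
      have h4 : 0 ≤ Bd * iE (a, c, c, a) := mul_nonneg (by linarith) h2
      linarith
    · have hw : wt yy ry rz (a, b, c, d) (a', b', c', d') = 0 := by
        unfold wt Wt
        rw [if_neg]
        rintro (h | h)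
        · simp only [Prod.mk.injEq] at h
          exact hA ⟨h.1.1, h.1.2, h.2.1, h.2.2⟩
        · simp only [Prod.mk.injEq] at h
          exact hX ⟨h.1.1, h.1.2, h.2.1, h.2.2⟩
      rw [hw]
      exact mul_nonneg (by linarith) hR0

theorem sum_wt_phi_le (yy : Prop) [Decidable yy] {ry rz P Bd : ℝ} (hry : 1 ≤ ry) (hrz : 0 < rz)
    (hP : 0 < P) (hB : ry ≤ Bd) (hB1 : 1 ≤ Bd)
    (hP2 : (if yy then ry else rz) * P ≤ Bd) (hP3 : 1 ≤ Bd * ((if yy then ry else rz) * P))
    (s : Fin n × Fin n × Fin n × Fin n) :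
    ∑ t, wt yy ry rz s t * phi ((if yy then ry else rz) * P) t
      ≤ ((n : ℝ) ^ 2 + (1 + Bd) * n) * phi P s := by
  calc ∑ t, wt yy ry rz s t * phi ((if yy then ry else rz) * P) t
      ≤ ∑ t, (iE s * (iE t + (1 + Bd) * iD t) + iX s / P * (iX t + (1 + Bd) * iD t)) :=
        Finset.sum_le_sum fun t _ => wt_mul_phi_le yy hry hrz hP hB hB1 hP2 hP3 s t
    _ = ((n : ℝ) ^ 2 + (1 + Bd) * n) * phi P s := by
        rw [Finset.sum_add_distrib, ← Finset.mul_sum, ← Finset.mul_sum, Finset.sum_add_distrib,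
          Finset.sum_add_distrib, ← Finset.mul_sum, sum_iE, sum_iX, sum_iD]
        unfold phi; ring

end States

/-- quadruples of functions -/
def quadEquiv (A S : Type*) : ((A → S) × (A → S) × (A → S) × (A → S)) ≃ (A → S × S × S × S) where
  toFun x := fun i => (x.1 i, x.2.1 i, x.2.2.1 i, x.2.2.2 i)
  invFun p := (fun i => (p i).1, fun i => (p i).2.1, fun i => (p i).2.2.1, fun i => (p i).2.2.2)
  left_inv x := rfl
  right_inv p := rfl

theorem Zsum_eq (N k : ℕ) (ry rz : ℝ) :
    Zsum N k ry rz = ∑ p : Fin (N + 1 + 1) → Fin (N + 1) × Fin (N + 1) × Fin (N + 1) × Fin (N + 1),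
      (if p 0 = (0, 0, 0, 0) then
        (∏ j : Fin (N + 1), wt (isY (N + 1) k j) ry rz (p j.castSucc) (p j.succ)) *
          (if p (Fin.last (N + 1)) = (0, 0, 0, 0) then 1 else 0) else 0) := by
  rw [← (quadEquiv (Fin (N + 1 + 1)) (Fin (N + 1))).sum_comp]
  simp only [Fintype.sum_prod_type]
  unfold Zsum Pth
  rw [Finset.sum_filter]
  apply Finset.sum_congr rfl
  intro a _
  by_cases ha : a 0 = 0 ∧ a (Fin.last (N + 1)) = 0
  swap
  · rw [if_neg ha]
    symm
    apply Finset.sum_eq_zero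
    intro b _
    apply Finset.sum_eq_zero
    intro c _
    apply Finset.sum_eq_zero
    intro d _
    by_cases h0 : a 0 = 0
    · have h1 : a (Fin.last (N + 1)) ≠ 0 := fun h => ha ⟨h0, h⟩
      simp [quadEquiv, h1]
    · simp [quadEquiv, h0]
  rw [if_pos ha, Finset.sum_filter]
  apply Finset.sum_congr rfl
  intro b _
  by_cases hb : b 0 = 0 ∧ b (Fin.last (N + 1)) = 0
  swap
  · rw [if_neg hb]
    symm
    apply Finset.sum_eq_zero
    intro c _
    apply Finset.sum_eq_zero
    intro d _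
    by_cases h0 : b 0 = 0
    · have h1 : b (Fin.last (N + 1)) ≠ 0 := fun h => hb ⟨h0, h⟩
      simp [quadEquiv, h1]
    · simp [quadEquiv, h0]
  rw [if_pos hb, Finset.sum_filter]
  apply Finset.sum_congr rfl
  intro c _
  by_cases hc : c 0 = 0 ∧ c (Fin.last (N + 1)) = 0
  swap
  · rw [if_neg hc]
    symm
    apply Finset.sum_eq_zero
    intro d _
    by_cases h0 : c 0 = 0
    · have h1 : c (Fin.last (N + 1)) ≠ 0 := fun h => hc ⟨h0, h⟩
      simp [quadEquiv, h1]
    · simp [quadEquiv, h0]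
  rw [if_pos hc, Finset.sum_filter]
  apply Finset.sum_congr rfl
  intro d _
  by_cases hd : d 0 = 0 ∧ d (Fin.last (N + 1)) = 0
  swap
  · rw [if_neg hd]
    symm
    by_cases h0 : d 0 = 0
    · have h1 : d (Fin.last (N + 1)) ≠ 0 := fun h => hd ⟨h0, h⟩
      simp [quadEquiv, h1]
    · simp [quadEquiv, h0]
  rw [if_pos hd]
  simp only [quadEquiv, Equiv.coe_fn_mk, ha.1, ha.2, hb.1, hb.2, hc.1, hc.2, hd.1, hd.2, if_true,
    mul_one]
  rfl

end Tr

open Tr in
theorem Zsum_le (N k : ℕ) (hk : k ≤ N) (ry rz Bd : ℝ) (hry : 1 ≤ ry) (hrz : 0 < rz) (hrz1 : rz ≤ 1)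
    (hB : ∀ i ≤ N + 1, ry ^ (rnd (N + 1) k i) * rz ^ (i - rnd (N + 1) k i) ≤ Bd ∧
      1 ≤ Bd * (ry ^ (rnd (N + 1) k i) * rz ^ (i - rnd (N + 1) k i)))
    (h1 : ry ≤ Bd) (h2 : 1 ≤ Bd * rz) :
    Zsum N k ry rz ≤ (N + 1 : ℝ) ^ (2 * N) * (4 * Bd * Real.exp (2 * (1 + Bd))) := by
  have hB1 : 1 ≤ Bd := hry.trans h1
  have hry0 : 0 < ry := by linarith
  have hPpos : ∀ i, 0 < PiW (N + 1) k ry rz i := PiW_pos _ _ _ _ hry0 hrz
  have hk' : k ≤ N + 1 := by omega
  have hn1 : (1:ℕ) ≤ N + 1 := by omega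
  set S4 := Fin (N + 1) × Fin (N + 1) × Fin (N + 1) × Fin (N + 1) with hS4
  set Cn : ℝ := ((N + 1 : ℕ) : ℝ) ^ 2 + (1 + Bd) * ((N + 1 : ℕ) : ℝ) with hCn
  have hCn0 : 0 ≤ Cn := by positivity
  have key := path_bound (T := S4) (fun j s t => wt (isY (N + 1) k j) ry rz s t)
    (fun j s t => wt_nonneg _ hry0.le hrz.le s t)
    (fun i s => if i = N + 1 then (if s = (0, 0, 0, 0) then 1 else 0)
      else phi (PiW (N + 1) k ry rz i) s)
    (fun i => if i = N then Bd else Cn)
    (fun i => by split_ifs <;> linarith) (0, 0, 0, 0) (N + 1) (by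
      intro i hi s
      by_cases hiN : i = N
      · subst hiN
        simp only [if_true, mul_ite, mul_one, mul_zero, Finset.sum_ite_eq', Finset.mem_univ]
        rw [if_neg (by omega)]
        have h3 := hB (i + 1) le_rfl
        have h4 := PiW_succ (i + 1) k ry rz hn1 hk' i
        apply wt_le _ hry hrz (hPpos i) h1 hB1
        rw [← h4]; exact h3.1
      · rw [if_neg hiN]
        simp only [if_neg (show ¬ (i + 1 = N + 1) by omega), if_neg (show ¬ (i = N + 1) by omega)]
        have h3 := hB (i + 1) (by omega)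
        have h4 := PiW_succ (N + 1) k ry rz hn1 hk' i
        rw [h4]
        apply sum_wt_phi_le _ hry hrz (hPpos i) h1 hB1
        · rw [← h4]; exact h3.1
        · rw [← h4]; exact h3.2)
  simp only [if_true] at key
  rw [← Zsum_eq] at key
  refine key.trans ?_
  rw [Finset.prod_range_succ]
  simp only [if_true]
  rw [if_neg (by omega : ¬ ((0:ℕ) = N + 1)), PiW_zero _ _ _ _ hn1]
  have h5 : ∏ i ∈ range N, (if i = N then Bd else Cn) = Cn ^ N := by
    rw [Finset.prod_congr rfl (g := fun _ => Cn)]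
    · simp
    · intro i hi
      rw [if_neg (by have := Finset.mem_range.1 hi; omega)]
  rw [h5]
  have h6 : phi (n := N + 1) 1 (0, 0, 0, 0) = 2 := by
    unfold phi iE iX; norm_num
  rw [h6]
  have h7 : Cn = ((N + 1 : ℕ) : ℝ) ^ 2 * (1 + (1 + Bd) / ((N + 1 : ℕ) : ℝ)) := by
    rw [hCn]; field_simp
  have h8 : (1 + (1 + Bd) / ((N + 1 : ℕ) : ℝ)) ^ N ≤ Real.exp (1 + Bd) := by
    have h9 : 1 + (1 + Bd) / ((N + 1 : ℕ) : ℝ) ≤ Real.exp ((1 + Bd) / ((N + 1 : ℕ) : ℝ)) := by
      have := Real.add_one_le_exp ((1 + Bd) / ((N + 1 : ℕ) : ℝ))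
      linarith
    calc (1 + (1 + Bd) / ((N + 1 : ℕ) : ℝ)) ^ N ≤ (Real.exp ((1 + Bd) / ((N + 1 : ℕ) : ℝ))) ^ N := by
          apply pow_le_pow_left₀ _ h9
          positivity
      _ = Real.exp (N * ((1 + Bd) / ((N + 1 : ℕ) : ℝ))) := by rw [Real.exp_nat_mul]
      _ ≤ Real.exp (1 + Bd) := by
          apply Real.exp_le_exp.2
          rw [mul_div_assoc', div_le_iff₀ (by positivity)]
          push_cast
          nlinarith
  have h10 : Real.exp (1 + Bd) ≤ Real.exp (2 * (1 + Bd)) := Real.exp_le_exp.2 (by linarith)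
  have h11 : Cn ^ N ≤ ((N : ℝ) + 1) ^ (2 * N) * Real.exp (2 * (1 + Bd)) := by
    rw [h7, mul_pow, ← pow_mul]
    push_cast
    apply mul_le_mul_of_nonneg_left _ (by positivity)
    have := h8.trans h10
    push_cast at this
    exact this
  have h12 : 0 ≤ ((N : ℝ) + 1) ^ (2 * N) * Real.exp (2 * (1 + Bd)) := by positivity
  nlinarith [mul_le_mul_of_nonneg_right h11 (by linarith : 0 ≤ 2 * Bd), mul_nonneg h12 (by linarith : 0 ≤ Bd)]

end

end Crest.Agent.D5
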