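import Crest.Agent.S504.Defs
import Crest.Agent.S504.PMDef
import Crest.Agent.S504.Card
import Crest.Agent.S504.Path
import Crest.Agent.S504.RankIneq
import Crest.Agent.S504.Tr1
import Crest.Agent.S504.Tr2
import Crest.Agent.S504.Transfer
import Crest.Agent.S504.Params

/-! # S0504, module L7: lower bound for the rank of the matrix of `imm` -/

set_option autoImplicit false

namespace Crest.Agent.D5

open MvPolynomial Finset Crest.ArithCircuit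

noncomputable section

/-- pure arithmetic -/
theorem L7_arith (X my0 my1 my2 mz R T2 Z c0 : ℝ) (hX : 0 < X) (hmy2 : 0 < my2) (hmz : 0 < mz)
    (hR0 : 0 ≤ R) (hlc : my2 * my0 ≤ my1 ^ 2) (hR : (X * my1 * mz) ^ 2 ≤ R * T2)
    (hT2 : T2 ≤ my2 * mz * Z) (hZ : Z ≤ X ^ 2 * c0) : my0 * mz ≤ c0 * R := by
  have h2 : (X * my1 * mz) ^ 2 ≤ R * (my2 * mz * (X ^ 2 * c0)) := by
    refine hR.trans (mul_le_mul_of_nonneg_left ?_ hR0)
    refine hT2.trans ?_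
    exact mul_le_mul_of_nonneg_left hZ (by positivity)
  have h3 : (X ^ 2 * mz * my2) * (my0 * mz) ≤ (X ^ 2 * mz * my2) * (c0 * R) := by
    calc (X ^ 2 * mz * my2) * (my0 * mz)
        = (X ^ 2 * mz ^ 2) * (my2 * my0) := by ring
      _ ≤ (X ^ 2 * mz ^ 2) * my1 ^ 2 :=
          mul_le_mul_of_nonneg_left hlc (by positivity)
      _ = (X * my1 * mz) ^ 2 := by ring
      _ ≤ R * (my2 * mz * (X ^ 2 * c0)) := h2
      _ = (X ^ 2 * mz * my2) * (c0 * R) := by ring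
  exact le_of_mul_le_mul_left h3 (by positivity)

theorem L7_pos (N : ℕ) : (0 : ℝ) < (N + 1 : ℝ) ^ N := by positivity

theorem rank_PM_ge (N k p l : ℕ) (hk1 : 1 ≤ k) (hkN : k ≤ N) (hkp : 2 * k ≤ p) (hnl : N + 1 ≤ l)
    (Bd : ℝ) (hry : 1 ≤ rhoY (N + 1) k p) (hrz0 : 0 < rhoZ (N + 1) k l)
    (hrz1 : rhoZ (N + 1) k l ≤ 1)
    (hB : ∀ i ≤ N + 1, (rhoY (N + 1) k p) ^ (rnd (N + 1) k i)
        * (rhoZ (N + 1) k l) ^ (i - rnd (N + 1) k i) ≤ Bd ∧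
      1 ≤ Bd * ((rhoY (N + 1) k p) ^ (rnd (N + 1) k i)
        * (rhoZ (N + 1) k l) ^ (i - rnd (N + 1) k i)))
    (hryB : rhoY (N + 1) k p ≤ Bd) (hrzB : 1 ≤ Bd * rhoZ (N + 1) k l) :
    ((Sec (YV (N + 1) k) p l).card : ℝ)
      ≤ (4 * Bd * Real.exp (2 * (1 + Bd)))
        * (((PM N k p l (p - k) (l + (N + 1 - k))).map (Nat.cast : ℕ → ℝ)).rank : ℝ) := by
  have hNY : 1 ≤ NY (N + 1) k := by
    unfold NY
    have : 0 < k * (N + 1) ^ 2 := by positivity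
    omega
  have hNZ : 1 ≤ NZ (N + 1) k := by
    unfold NZ
    have h0 : 0 < N + 1 - k := by omega
    have : 0 < (N + 1 - k) * (N + 1) ^ 2 := by positivity
    omega
  have hZ := Zsum_le N k hkN (rhoY (N + 1) k p) (rhoZ (N + 1) k l) Bd hry hrz0 hrz1
    hB hryB hrzB
  have hT1 := trace_one N k p l (by omega) (by omega)
  have hT2 := trace_two N k p l hk1 hkN hkp hnl
  have hR := rank_ge_of_trace ((PM N k p l (p - k) (l + (N + 1 - k))).map (Nat.cast : ℕ → ℝ))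
  simp only [Matrix.map_apply] at hR
  rw [hT1] at hR
  have hcard : ((Sec (YV (N + 1) k) p l).card : ℝ)
      = (Nat.multichoose (NY (N + 1) k) p : ℝ) * (Nat.multichoose (NZ (N + 1) k) l : ℝ) := by
    rw [card_Sec, card_YV (N + 1) k (by omega) (by omega),
      card_YV_compl (N + 1) k (by omega) (by omega)]
    push_cast
    rfl
  rw [hcard]
  have q1 : (0 : ℝ) < (N + 1 : ℝ) ^ N := L7_pos N
  have q2 : (0 : ℝ) < (Nat.multichoose (NY (N + 1) k) (p - 2 * k) : ℝ) :=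
    Nat.cast_pos.2 (mc_pos _ _ hNY)
  have q3 : (0 : ℝ) < (Nat.multichoose (NZ (N + 1) k) l : ℝ) :=
    Nat.cast_pos.2 (mc_pos _ _ hNZ)
  have q4 : (Nat.multichoose (NY (N + 1) k) (p - 2 * k) : ℝ)
      * (Nat.multichoose (NY (N + 1) k) p : ℝ)
      ≤ (Nat.multichoose (NY (N + 1) k) (p - k) : ℝ) ^ 2 := by
    have := mc_logconcave (NY (N + 1) k) p k hNY hkp
    rw [← Nat.cast_mul, ← Nat.cast_pow]
    exact Nat.cast_le.2 this
  have q5 : Zsum N k (rhoY (N + 1) k p) (rhoZ (N + 1) k l) ≤ ((N + 1 : ℝ) ^ N) ^ 2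
      * (4 * Bd * Real.exp (2 * (1 + Bd))) := by
    rw [← pow_mul, mul_comm N 2]; exact hZ
  generalize (Nat.multichoose (NY (N + 1) k) (p - 2 * k) : ℝ) = my2 at *
  generalize (Nat.multichoose (NY (N + 1) k) (p - k) : ℝ) = my1 at *
  generalize (Nat.multichoose (NY (N + 1) k) p : ℝ) = my0 at *
  generalize (Nat.multichoose (NZ (N + 1) k) l : ℝ) = mz at *
  generalize 4 * Bd * Real.exp (2 * (1 + Bd)) = c0 at *
  exact L7_arith _ _ _ _ _ _ _ _ _ q1 q2 q3 (Nat.cast_nonneg _) q4 hR hT2 q5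

theorem imm_rank_ge : ∃ n₁ : ℕ, ∀ N : ℕ, n₁ ≤ N + 1 → ∀ (K : Type*) [Field K] [CharZero K],
    ((Sec (YV (N + 1) (kk (N + 1))) (pp (N + 1)) (ll (N + 1))).card : ℝ)
      ≤ (12 * Real.sqrt (N + 1 : ℕ) * Real.exp (2 + 6 * Real.sqrt (N + 1 : ℕ)))
        * ((Mt (YV (N + 1) (kk (N + 1))) (imm K (N + 1)) (pp (N + 1)) (ll (N + 1))
          (pp (N + 1) - kk (N + 1)) (ll (N + 1) + (N + 1 - kk (N + 1)))).rank : ℝ) := by
  obtain ⟨n1, h1⟩ := params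
  refine ⟨n1, ?_⟩
  intro N hn1 K _ _
  obtain ⟨hk1, hk2, -, -, -, -, -, hkp, hnl, -, -, hry, hrz0, hrz1, hryB, hrzB, hB⟩ :=
    h1 (N + 1) hn1
  have hmain := rank_PM_ge N (kk (N + 1)) (pp (N + 1)) (ll (N + 1)) hk1 (by omega) hkp hnl
    (3 * Real.sqrt (N + 1 : ℕ)) hry hrz0 hrz1 hB hryB hrzB
  have hc0' : 4 * (3 * Real.sqrt (N + 1 : ℕ)) * Real.exp (2 * (1 + 3 * Real.sqrt (N + 1 : ℕ)))
      = 12 * Real.sqrt (N + 1 : ℕ) * Real.exp (2 + 6 * Real.sqrt (N + 1 : ℕ)) := by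
    congr 1
    · ring
    · congr 1; ring
  rw [hc0'] at hmain
  refine hmain.trans ?_
  rw [Mt_imm_eq K N (kk (N + 1)) (pp (N + 1)) (ll (N + 1)) (pp (N + 1) - kk (N + 1))
    (ll (N + 1) + (N + 1 - kk (N + 1)))]
  refine mul_le_mul_of_nonneg_left ?_ (by positivity)
  exact_mod_cast rank_cast_le _ K

end

end Crest.Agent.D5
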