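import Mathlib
import Crest.Agent.S504.Defs

/-! S0504, module U4a: `SS_zero`, `SS_one_le`, `SS_le_big`. -/

set_option autoImplicit false

namespace Crest.Agent.D5

open Finset

noncomputable section

theorem SS_zero (wy wz : ℝ) : SS wy wz 0 = 1 := by
  simp [SS]

/-- `wy κ - wz (e - κ) = log n (κ - k e / n)` -/
theorem SS_arg (n k e κ : ℕ) (hn : 1 ≤ n) :
    Real.log n * ((n : ℝ) - k) / n * κ - Real.log n * k / n * ((e : ℝ) - κ)
      = Real.log n * (κ - (k : ℝ) * e / n) := by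
  have hn' : (n : ℝ) ≠ 0 := by positivity
  field_simp
  ring

theorem SS_one_le (n k : ℕ) (hn : 2 ≤ n) (hk : 2 * n ≤ 5 * k) (hk2 : 2 * k ≤ n) :
    SS (Real.log n * (n - k) / n) (Real.log n * k / n) 1 ≤ 2 * (n : ℝ) ^ (-(1 / 5 : ℝ)) := by
  have hn0 : (0 : ℝ) < n := by positivity
  have hL : 0 ≤ Real.log n := Real.log_natCast_nonneg n
  have hkR : 2 * (n : ℝ) ≤ 5 * k := by exact_mod_cast hk
  have hk2R : 2 * (k : ℝ) ≤ n := by exact_mod_cast hk2
  have hwz : 2 / 5 * Real.log n ≤ Real.log n * k / n := by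
    rw [le_div_iff₀ hn0]
    nlinarith
  have hwy : 2 / 5 * Real.log n ≤ Real.log n * ((n : ℝ) - k) / n := by
    rw [le_div_iff₀ hn0]
    nlinarith
  have hwz0 : 0 ≤ Real.log n * k / n := by positivity
  have hwy0 : 0 ≤ Real.log n * ((n : ℝ) - k) / n := le_trans (by positivity) hwy
  have hpow : (n : ℝ) ^ (-(1 / 5 : ℝ)) = Real.exp (-(Real.log n / 5)) := by
    rw [Real.rpow_def_of_pos hn0]
    congr 1
    ring
  have e0 : SS (Real.log n * (n - k) / n) (Real.log n * k / n) 1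
      = Real.exp (-(Real.log n * k / n) / 2) + Real.exp (-(Real.log n * ((n : ℝ) - k) / n) / 2) := by
    unfold SS
    rw [Finset.sum_range_succ, Finset.sum_range_one]
    congr 1
    · congr 1
      have : Real.log n * ((n : ℝ) - k) / n * ((0 : ℕ) : ℝ)
          - Real.log n * k / n * (((1 : ℕ) : ℝ) - ((0 : ℕ) : ℝ)) = -(Real.log n * k / n) := by
        push_cast; ring
      rw [this, abs_neg, abs_of_nonneg hwz0]
    · congr 1
      have : Real.log n * ((n : ℝ) - k) / n * ((1 : ℕ) : ℝ)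
          - Real.log n * k / n * (((1 : ℕ) : ℝ) - ((1 : ℕ) : ℝ)) = Real.log n * ((n : ℝ) - k) / n := by
        push_cast; ring
      rw [this, abs_of_nonneg hwy0]
  rw [e0, hpow]
  have h1 : Real.exp (-(Real.log n * k / n) / 2) ≤ Real.exp (-(Real.log n / 5)) :=
    Real.exp_le_exp.mpr (by linarith)
  have h2 : Real.exp (-(Real.log n * ((n : ℝ) - k) / n) / 2) ≤ Real.exp (-(Real.log n / 5)) :=
    Real.exp_le_exp.mpr (by linarith)
  linarith

/-- two-sided geometric sum: `∑_{κ ≤ e} exp (-a |κ - c|) ≤ (x^θ + x^(1-θ)) / (1 - x)`,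
`c = m + θ`, `x = exp (-a)` -/
theorem geo_two (a : ℝ) (ha : 0 < a) (c : ℝ) (m e : ℕ) (θ : ℝ) (hc : c = m + θ) (h0 : 0 ≤ θ)
    (h1 : θ ≤ 1) (hme : m ≤ e) :
    ∑ κ ∈ Finset.range (e + 1), Real.exp (-(a * |(κ : ℝ) - c|))
      ≤ (Real.exp (-(a * θ)) + Real.exp (-(a * (1 - θ)))) * (1 - Real.exp (-a))⁻¹ := by
  have hx0 : 0 ≤ Real.exp (-a) := (Real.exp_pos _).le
  have hx1 : Real.exp (-a) < 1 := by
    rw [Real.exp_lt_one_iff]; linarith
  have hgeo : ∀ N : ℕ, ∑ j ∈ Finset.range N, Real.exp (-a) ^ j ≤ (1 - Real.exp (-a))⁻¹ := by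
    intro N
    rw [← tsum_geometric_of_lt_one hx0 hx1]
    exact Summable.sum_le_tsum _ (fun i _ => pow_nonneg hx0 i)
      (summable_geometric_of_lt_one hx0 hx1)
  have hsplit : e + 1 = (m + 1) + (e - m) := by omega
  rw [hsplit, Finset.sum_range_add, add_mul]
  refine add_le_add ?_ ?_
  · have : ∑ κ ∈ Finset.range (m + 1), Real.exp (-(a * |(κ : ℝ) - c|))
        = Real.exp (-(a * θ)) * ∑ j ∈ Finset.range (m + 1), Real.exp (-a) ^ (m + 1 - 1 - j) := by
      rw [Finset.mul_sum]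
      refine Finset.sum_congr rfl fun κ hκ => ?_
      have hκm : κ ≤ m := by
        have := Finset.mem_range.mp hκ
        omega
      have hκR : (κ : ℝ) ≤ m := by exact_mod_cast hκm
      rw [← Real.exp_nat_mul, ← Real.exp_add]
      congr 1
      rw [abs_of_nonpos (by rw [hc]; linarith)]
      have : ((m + 1 - 1 - κ : ℕ) : ℝ) = (m : ℝ) - κ := by
        rw [Nat.add_sub_cancel, Nat.cast_sub hκm]
      rw [this, hc]
      ring
    rw [this, Finset.sum_range_reflect]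
    exact mul_le_mul_of_nonneg_left (hgeo _) (Real.exp_pos _).le
  · have : ∑ κ ∈ Finset.range (e - m), Real.exp (-(a * |((m + 1 + κ : ℕ) : ℝ) - c|))
        = Real.exp (-(a * (1 - θ))) * ∑ j ∈ Finset.range (e - m), Real.exp (-a) ^ j := by
      rw [Finset.mul_sum]
      refine Finset.sum_congr rfl fun κ hκ => ?_
      rw [← Real.exp_nat_mul, ← Real.exp_add]
      congr 1
      have hκ0 : (0 : ℝ) ≤ κ := Nat.cast_nonneg κ
      rw [abs_of_nonneg (by rw [hc]; push_cast; linarith)]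
      rw [hc]
      push_cast
      ring
    rw [this]
    exact mul_le_mul_of_nonneg_left (hgeo _) (Real.exp_pos _).le

/-- the crude bound `∑ ≤ exp (3 x)` for `x = exp (-a) ≤ 1/2` -/
theorem geo_two_le (a : ℝ) (ha : Real.exp (-a) ≤ 1 / 2) (c : ℝ) (e : ℕ) (hc0 : 0 ≤ c)
    (hce : c ≤ e) :
    ∑ κ ∈ Finset.range (e + 1), Real.exp (-(a * |(κ : ℝ) - c|))
      ≤ Real.exp (3 * Real.exp (-a)) := by
  have ha0 : 0 < a := by
    have : Real.exp (-a) < 1 := by linarith
    rw [Real.exp_lt_one_iff] at this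
    linarith
  have hm : ⌊c⌋₊ ≤ e := Nat.floor_le_of_le (by exact_mod_cast hce)
  have hfl := Nat.floor_le hc0
  have hfl2 := (Nat.lt_floor_add_one c).le
  refine (geo_two a ha0 c ⌊c⌋₊ e (c - ⌊c⌋₊) (by ring) (by linarith) (by linarith) hm).trans ?_
  set θ : ℝ := c - ⌊c⌋₊ with hθ
  have hθ0 : 0 ≤ θ := by rw [hθ]; linarith
  have hθ1 : θ ≤ 1 := by rw [hθ]; linarith
  set x : ℝ := Real.exp (-a) with hx
  have hx0 : 0 < x := Real.exp_pos _
  have hprod : Real.exp (-(a * θ)) * Real.exp (-(a * (1 - θ))) = x := by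
    rw [← Real.exp_add, hx]
    congr 1
    ring
  have hA : Real.exp (-(a * θ)) ≤ 1 := by
    rw [Real.exp_le_one_iff]; nlinarith
  have hB : Real.exp (-(a * (1 - θ))) ≤ 1 := by
    rw [Real.exp_le_one_iff]; nlinarith
  have hsum : Real.exp (-(a * θ)) + Real.exp (-(a * (1 - θ))) ≤ 1 + x := by
    nlinarith
  have h1x : 0 < 1 - x := by linarith
  have hinv : (1 - x)⁻¹ ≤ 1 + 2 * x := by
    rw [inv_le_iff_one_le_mul₀ h1x]
    nlinarith
  calc (Real.exp (-(a * θ)) + Real.exp (-(a * (1 - θ)))) * (1 - x)⁻¹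
      ≤ (1 + x) * (1 + 2 * x) :=
        mul_le_mul hsum hinv (inv_nonneg.mpr h1x.le) (by linarith)
    _ ≤ Real.exp x * Real.exp (2 * x) := by
        have e1 : 1 + x ≤ Real.exp x := by linarith [Real.add_one_le_exp x]
        have e2 : 1 + 2 * x ≤ Real.exp (2 * x) := by linarith [Real.add_one_le_exp (2 * x)]
        exact mul_le_mul e1 e2 (by linarith) (Real.exp_pos _).le
    _ = Real.exp (3 * x) := by
        rw [← Real.exp_add]
        congr 1
        ring

theorem exp_neg_half_log (n : ℕ) (hn : 1 ≤ n) :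
    Real.exp (-(Real.log n / 2)) = 1 / Real.sqrt n := by
  have hn0 : (0 : ℝ) < n := by exact_mod_cast hn
  rw [Real.exp_neg, one_div]
  congr 1
  symm
  rw [Real.sqrt_eq_iff_mul_self_eq hn0.le (Real.exp_pos _).le, ← Real.exp_add]
  rw [add_halves, Real.exp_log hn0]

/-- `SS` in the normal form `∑ exp (-(log n / 2) |κ - k e / n|)` -/
theorem SS_eq (n k e : ℕ) (hn : 1 ≤ n) :
    SS (Real.log n * (n - k) / n) (Real.log n * k / n) e
      = ∑ κ ∈ Finset.range (e + 1), Real.exp (-(Real.log n / 2 * |(κ : ℝ) - (k : ℝ) * e / n|)) := by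
  unfold SS
  refine Finset.sum_congr rfl fun κ _ => ?_
  rw [SS_arg n k e κ hn, abs_mul, abs_of_nonneg (Real.log_natCast_nonneg n)]
  congr 1
  ring

theorem SS_le_big : ∃ n₁ : ℕ, ∀ n ≥ n₁, ∀ k : ℕ, 2 * k ≤ n → ∀ e : ℕ,
    SS (Real.log n * (n - k) / n) (Real.log n * k / n) e ≤ Real.exp (4 / Real.sqrt n * e) := by
  refine ⟨4, fun n hn k hk e => ?_⟩
  have hn1 : 1 ≤ n := by omega
  have hn0 : (0 : ℝ) < n := by exact_mod_cast hn1
  rcases Nat.eq_zero_or_pos e with rfl | he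
  · rw [SS_zero]; simp
  have hx := exp_neg_half_log n hn1
  have hs2 : (2 : ℝ) ≤ Real.sqrt n := by
    rw [show (2 : ℝ) = Real.sqrt 4 by
      rw [show (4 : ℝ) = 2 ^ 2 by norm_num, Real.sqrt_sq (by norm_num)]]
    exact Real.sqrt_le_sqrt (by exact_mod_cast hn)
  have hs0 : 0 < Real.sqrt n := by linarith
  have hxle : Real.exp (-(Real.log n / 2)) ≤ 1 / 2 := by
    rw [hx]
    exact one_div_le_one_div_of_le (by norm_num) hs2
  have hkR : 2 * (k : ℝ) ≤ n := by exact_mod_cast hk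
  have hc0 : 0 ≤ (k : ℝ) * e / n := by positivity
  have hce : (k : ℝ) * e / n ≤ e := by
    rw [div_le_iff₀ hn0]
    have : (0 : ℝ) ≤ e := Nat.cast_nonneg e
    have hk0 : (0 : ℝ) ≤ k := Nat.cast_nonneg k
    nlinarith
  rw [SS_eq n k e hn1]
  refine (geo_two_le _ hxle _ e hc0 hce).trans (Real.exp_le_exp.mpr ?_)
  rw [hx]
  have he1 : (1 : ℝ) ≤ e := by exact_mod_cast he
  have hinv : 0 < 1 / Real.sqrt n := by positivity
  have : 4 / Real.sqrt n * e = 4 * (1 / Real.sqrt n) * e := by ring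
  rw [this]
  nlinarith

end

end Crest.Agent.D5
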