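import Mathlib
import Crest.Agent.S504.Defs
import Crest.Agent.S504.SSBound1

/-! S0504, module U4: `SS_le_small` (and everything from `SSBound1`). -/

set_option autoImplicit false

namespace Crest.Agent.D5

open Finset

noncomputable section

/-- `exp (t u) ≤ 1 + t (exp u - 1)` for `0 ≤ t ≤ 1` -/
theorem exp_mul_le_convex (t u : ℝ) (h0 : 0 ≤ t) (h1 : t ≤ 1) :
    Real.exp (t * u) ≤ 1 + t * (Real.exp u - 1) := by
  have := convexOn_exp.2 (Set.mem_univ (0 : ℝ)) (Set.mem_univ u) (sub_nonneg.mpr h1) h0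
    (by ring : (1 - t) + t = 1)
  simp only [smul_eq_mul, mul_zero, zero_add, Real.exp_zero, mul_one] at this
  linarith

set_option maxHeartbeats 2000000 in
theorem SS_le_small : ∃ n₁ : ℕ, ∀ n ≥ n₁, ∀ k δ q : ℕ, n = 2 * k + δ → q = Nat.sqrt n →
    4 * δ * q ≤ n → ∀ e < q,
    SS (Real.log n * (n - k) / n) (Real.log n * k / n) e
      ≤ Real.exp (-((Real.log n * δ / (4 * n) - 4 / Real.sqrt n) * e)) := by
  refine ⟨65536, fun n hn k δ q hnk hq hδ e he => ?_⟩
  have hn1 : 1 ≤ n := by omega
  have hn0 : (0 : ℝ) < n := by exact_mod_cast hn1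
  rcases Nat.eq_zero_or_pos e with rfl | hepos
  · rw [SS_zero]; simp
  -- basic quantities
  have hx := exp_neg_half_log n hn1
  have hs256 : (256 : ℝ) ≤ Real.sqrt n := by
    rw [show (256 : ℝ) = Real.sqrt 65536 by
      rw [show (65536 : ℝ) = 256 ^ 2 by norm_num, Real.sqrt_sq (by norm_num)]]
    exact Real.sqrt_le_sqrt (by exact_mod_cast hn)
  have hs0 : 0 < Real.sqrt n := by linarith
  have hlog : 0 < Real.log n := Real.log_pos (by exact_mod_cast (by omega : 1 < n))
  set a : ℝ := Real.log n / 2 with ha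
  have ha0 : 0 < a := by rw [ha]; linarith
  set x : ℝ := Real.exp (-a) with hxdef
  have hxs : x = 1 / Real.sqrt n := hx
  have hx0 : 0 < x := Real.exp_pos _
  have hx1 : x ≤ 1 / 256 := by
    rw [hxs]
    exact one_div_le_one_div_of_le (by norm_num) hs256
  have hkR : (n : ℝ) = 2 * k + δ := by exact_mod_cast hnk
  have hqpos : 0 < q := by omega
  have hqR : (0 : ℝ) < q := by exact_mod_cast hqpos
  have hδR : 4 * (δ : ℝ) * q ≤ n := by exact_mod_cast hδ
  have heq : (e : ℝ) ≤ q := by exact_mod_cast he.le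
  have he1 : (1 : ℝ) ≤ e := by exact_mod_cast hepos
  -- η = δ e / (2 n)
  set η : ℝ := δ * e / (2 * n) with hη
  have hη0 : 0 ≤ η := by positivity
  have hδ0 : (0 : ℝ) ≤ δ := Nat.cast_nonneg δ
  have hη1 : η ≤ e / (8 * q) := by
    rw [hη, div_le_div_iff₀ (by positivity) (by positivity)]
    nlinarith [mul_nonneg (sub_nonneg.mpr hδR) (by positivity : (0 : ℝ) ≤ 2 * e)]
  have hη8 : η ≤ 1 / 8 := by
    refine hη1.trans ?_
    rw [div_le_div_iff₀ (by positivity) (by norm_num)]
    linarith
  have htarget : -((Real.log n * δ / (4 * n) - 4 / Real.sqrt n) * e) = -(a * η) + 4 * x * e := by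
    rw [hxs, ha, hη]
    field_simp
    ring
  rw [htarget, SS_eq n k e hn1, Real.exp_add]
  have hinv : (1 - x)⁻¹ ≤ 1 + 2 * x := by
    rw [inv_le_iff_one_le_mul₀ (by linarith)]
    nlinarith
  have hinv0 : 0 ≤ (1 - x)⁻¹ := inv_nonneg.mpr (by linarith)
  have hc : (k : ℝ) * e / n = e / 2 - η := by
    rw [hη]
    have : (k : ℝ) = (n - δ) / 2 := by linarith
    rw [this]
    field_simp
  rcases Nat.even_or_odd e with hev | hodd
  · -- even
    obtain ⟨j, hj⟩ := hev
    have hj1 : 1 ≤ j := by omega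
    have hjR : (e : ℝ) = j + j := by exact_mod_cast hj
    have hcc : (k : ℝ) * e / n = ((j - 1 : ℕ) : ℝ) + (1 - η) := by
      rw [hc, Nat.cast_sub hj1, hjR]
      push_cast
      ring
    refine (geo_two a ha0 _ (j - 1) e (1 - η) hcc (by linarith) (by linarith) (by omega)).trans ?_
    have e1 : 1 - (1 - η) = η := by ring
    rw [e1, ← hxdef]
    -- x^(1-η) = x^η * (x * exp (2 a η))
    have e2 : Real.exp (-(a * (1 - η))) = Real.exp (-(a * η)) * (x * Real.exp (2 * a * η)) := by
      rw [hxdef, ← Real.exp_add, ← Real.exp_add]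
      congr 1
      ring
    rw [e2]
    have hE : Real.exp (2 * a * η) ≤ 1 + e := by
      have h8 : 2 * a * η ≤ (e / q) * (Real.log n / 8) := by
        have : 2 * a = Real.log n := by rw [ha]; ring
        rw [this]
        calc Real.log n * η ≤ Real.log n * (e / (8 * q)) := by gcongr
          _ = (e / q) * (Real.log n / 8) := by
            field_simp
      refine (Real.exp_le_exp.mpr h8).trans ?_
      refine (exp_mul_le_convex _ _ (by positivity) (by
        rw [div_le_one hqR]; exact heq)).trans ?_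
      have hlq : Real.exp (Real.log n / 8) ≤ q + 1 := by
        have h1 : n < (q + 1) * (q + 1) := by
          rw [hq]; exact Nat.lt_succ_sqrt n
        have h2 : (n : ℝ) ≤ ((q : ℝ) + 1) ^ 2 := by
          have : (n : ℝ) < ((q : ℝ) + 1) * ((q : ℝ) + 1) := by exact_mod_cast h1
          nlinarith
        have h3 : Real.log n ≤ 2 * Real.log ((q : ℝ) + 1) := by
          have := Real.log_le_log hn0 h2
          rwa [Real.log_pow] at this
        have hl0 : 0 ≤ Real.log ((q : ℝ) + 1) := Real.log_nonneg (by linarith)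
        calc Real.exp (Real.log n / 8) ≤ Real.exp (Real.log ((q : ℝ) + 1)) :=
              Real.exp_le_exp.mpr (by linarith)
          _ = q + 1 := Real.exp_log (by linarith)
      have : (e : ℝ) / q * (Real.exp (Real.log n / 8) - 1) ≤ e := by
        calc (e : ℝ) / q * (Real.exp (Real.log n / 8) - 1) ≤ (e : ℝ) / q * q := by
              gcongr
              linarith
          _ = e := by field_simp
      linarith
    have hfac : (Real.exp (-(a * η)) * (x * Real.exp (2 * a * η)) + Real.exp (-(a * η))) * (1 - x)⁻¹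
        = Real.exp (-(a * η)) * ((1 + x * Real.exp (2 * a * η)) * (1 - x)⁻¹) := by ring
    rw [hfac]
    refine mul_le_mul_of_nonneg_left ?_ (Real.exp_pos _).le
    have hb1 : 1 + x * Real.exp (2 * a * η) ≤ 1 + x * (1 + e) := by gcongr
    calc (1 + x * Real.exp (2 * a * η)) * (1 - x)⁻¹ ≤ (1 + x * (1 + e)) * (1 + 2 * x) :=
          mul_le_mul hb1 hinv hinv0 (by positivity)
      _ ≤ Real.exp (x * (1 + e)) * Real.exp (2 * x) := by
          have g1 : 1 + x * (1 + e) ≤ Real.exp (x * (1 + e)) := by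
            linarith [Real.add_one_le_exp (x * (1 + (e : ℝ)))]
          have g2 : 1 + 2 * x ≤ Real.exp (2 * x) := by linarith [Real.add_one_le_exp (2 * x)]
          exact mul_le_mul g1 g2 (by positivity) (Real.exp_pos _).le
      _ ≤ Real.exp (4 * x * e) := by
          rw [← Real.exp_add]
          refine Real.exp_le_exp.mpr ?_
          nlinarith
  · -- odd
    obtain ⟨j, hj⟩ := hodd
    have hjR : (e : ℝ) = 2 * j + 1 := by exact_mod_cast hj
    have hcc : (k : ℝ) * e / n = (j : ℝ) + (1 / 2 - η) := by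
      rw [hc, hjR]
      ring
    refine (geo_two a ha0 _ j e (1 / 2 - η) hcc (by linarith) (by linarith) (by omega)).trans ?_
    rw [← hxdef]
    have hx14 : Real.exp (-(a / 4)) ≤ 1 / 4 := by
      have h4 : Real.exp (-(a / 4)) ^ 4 ≤ (1 / 4) ^ 4 := by
        rw [← Real.exp_nat_mul]
        have : ((4 : ℕ) : ℝ) * -(a / 4) = -a := by push_cast; ring
        rw [this]
        calc Real.exp (-a) ≤ 1 / 256 := hx1
          _ = (1 / 4) ^ 4 := by norm_num
      exact le_of_pow_le_pow_left₀ (by norm_num) (by norm_num) h4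
    have b1 : Real.exp (-(a * (1 / 2 - η))) ≤ Real.exp (-(a * η)) * (1 / 4) := by
      calc Real.exp (-(a * (1 / 2 - η))) ≤ Real.exp (-(a * η) + -(a / 4)) := by
            refine Real.exp_le_exp.mpr ?_
            nlinarith
        _ = Real.exp (-(a * η)) * Real.exp (-(a / 4)) := Real.exp_add _ _
        _ ≤ _ := by gcongr
    have b2 : Real.exp (-(a * (1 - (1 / 2 - η)))) ≤ Real.exp (-(a * η)) * (1 / 4) := by
      calc Real.exp (-(a * (1 - (1 / 2 - η)))) ≤ Real.exp (-(a * η) + -(a / 4)) := by
            refine Real.exp_le_exp.mpr ?_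
            nlinarith
        _ = Real.exp (-(a * η)) * Real.exp (-(a / 4)) := Real.exp_add _ _
        _ ≤ _ := by gcongr
    have hpos : 0 < Real.exp (-(a * η)) := Real.exp_pos _
    calc (Real.exp (-(a * (1 / 2 - η))) + Real.exp (-(a * (1 - (1 / 2 - η))))) * (1 - x)⁻¹
        ≤ (Real.exp (-(a * η)) * (1 / 2)) * 2 := by
          refine mul_le_mul (by linarith) (by linarith) hinv0 (by positivity)
      _ = Real.exp (-(a * η)) * 1 := by ring
      _ ≤ Real.exp (-(a * η)) * Real.exp (4 * x * e) := by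
          refine mul_le_mul_of_nonneg_left ?_ hpos.le
          exact Real.one_le_exp (by positivity)

end

end Crest.Agent.D5
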