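import Crest.Agent.S504.Circ
import Crest.Agent.S504.Params
import Crest.Agent.S504.Asym
import Crest.Agent.S504.SSBound
import Crest.Agent.S504.Path
import Crest.Agent.S504.LowerRank

/-! # S0504: assembly of the homogeneous depth-five lower bound -/

set_option autoImplicit false
universe u v

namespace Crest.Agent.D5

open MvPolynomial Finset Crest.ArithCircuit

theorem main_bound : ∃ n₀ : ℕ, ∀ n ≥ n₀, ∀ (K : Type u) [Field K] [CharZero K]
      (L B P S R : Type v) [Fintype L] [Fintype B] [Fintype P] [Fintype S] [Fintype R]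
      (C : Crest.ArithCircuit.SPSPS K (Fin n × Fin n × Fin n) L B P S R),
      C.IsHomogeneous → C.output = Crest.ArithCircuit.imm K n →
        (n : ℝ) ^ (Real.sqrt n / 400) ≤ (C.size : ℝ) := by
  obtain ⟨n1, h1⟩ := params
  obtain ⟨n2, h2⟩ := imm_rank_ge.{u}
  obtain ⟨n3, h3⟩ := SS_le_big
  obtain ⟨n4, h4⟩ := SS_le_small
  obtain ⟨n5, h5⟩ := final_ineq
  refine ⟨max (max n1 n2) (max (max n3 n4) (max n5 32)), ?_⟩
  intro n hn K _ _ L B P S R _ _ _ _ _ C hC hout
  have hn1 : n1 ≤ n := le_trans (le_trans (le_max_left _ _) (le_max_left _ _)) hn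
  have hn2 : n2 ≤ n := le_trans (le_trans (le_max_right _ _) (le_max_left _ _)) hn
  have hn3 : n3 ≤ n := le_trans (le_trans (le_trans (le_max_left _ _) (le_max_left _ _))
    (le_max_right _ _)) hn
  have hn4 : n4 ≤ n := le_trans (le_trans (le_trans (le_max_right _ _) (le_max_left _ _))
    (le_max_right _ _)) hn
  have hn5 : n5 ≤ n := le_trans (le_trans (le_trans (le_max_left _ _) (le_max_right _ _))
    (le_max_right _ _)) hn
  have hn32 : 32 ≤ n := le_trans (le_trans (le_trans (le_max_right _ _) (le_max_right _ _))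
    (le_max_right _ _)) hn
  obtain ⟨hk1, hk2, hk25, -, hkq, hkq4, hbal, hkp, hnl, H1, H2, -⟩ := h1 n hn1
  have hrank : ((Sec (YV n (kk n)) (pp n) (ll n)).card : ℝ)
      ≤ (12 * Real.sqrt n * Real.exp (2 + 6 * Real.sqrt n))
        * ((Mt (YV n (kk n)) (imm K n) (pp n) (ll n)
          (pp n - kk n) (ll n + (n - kk n))).rank : ℝ) := by
    obtain ⟨N, rfl⟩ : ∃ N, n = N + 1 := ⟨n - 1, by omega⟩
    exact h2 N hn2 K
  have himm0 : imm K n ≠ 0 := by
    obtain ⟨N, rfl⟩ : ∃ N, n = N + 1 := ⟨n - 1, by omega⟩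
    exact imm_ne_zero K N
  have himmh : (imm K n).IsHomogeneous n := by
    obtain ⟨N, rfl⟩ : ∃ N, n = N + 1 := ⟨n - 1, by omega⟩
    exact imm_isHomogeneous K N
  set k := kk n with hkdef
  have hkn : k ≤ n := by omega
  have hnpos : (0 : ℝ) < n := by exact_mod_cast (by omega : 0 < n)
  -- degree of the output
  have hdeg : C.degOut = n := by
    have ha := output_isHomogeneous C hC
    rw [hout] at ha
    exact ha.inj_right himmh himm0
  -- SS bounds
  have hA1 : SS (wY n) (wZ n) 1 ≤ 2 * (n : ℝ) ^ (-(1 / 5 : ℝ)) :=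
    SS_one_le n k (by omega) hk25 hk2
  have hA1' : 2 * (n : ℝ) ^ (-(1 / 5 : ℝ)) ≤ 1 := by
    have : (n : ℝ) ^ (-(1 / 5 : ℝ)) ≤ (32 : ℝ) ^ (-(1 / 5 : ℝ)) := by
      apply Real.rpow_le_rpow_of_nonpos (by norm_num) (by exact_mod_cast hn32) (by norm_num)
    have h32 : (32 : ℝ) ^ (-(1 / 5 : ℝ)) = 1 / 2 := by
      rw [show (32 : ℝ) = 2 ^ (5 : ℝ) by norm_num, ← Real.rpow_mul (by norm_num)]
      norm_num [Real.rpow_neg]
    linarith
  have hE1 : (0 : ℝ) ≤ 4 / Real.sqrt n := by positivity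
  have hbig : ∀ e : ℕ, SS (wY n) (wZ n) e ≤ Real.exp (4 / Real.sqrt n * e) :=
    h3 n hn3 k hk2
  have hsmall : ∀ e < Nat.sqrt n, SS (wY n) (wZ n) e
      ≤ Real.exp (-((Real.log n * (n - 2 * k : ℕ) / (4 * n) - 4 / Real.sqrt n) * e)) :=
    h4 n hn4 k (n - 2 * k) (Nat.sqrt n) (by omega) rfl hkq4
  have hcost := circuit_cost C hC n (Nat.sqrt n) hdeg (YV n k) (wY n) (wZ n) _ _ _ hA1 hA1' hE1
    hbig hsmall
  have hpk : pp n - k + k = pp n := by omega
  have hr := hcost.rank_le (pp n - k) (ll n) k (n - k) hbal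
    (by rw [card_YV n k (by omega) hkn, hpk]; exact H1)
    (by rw [card_YV_compl n k (by omega) hkn]; exact H2)
  rw [hpk, hout] at hr
  have hcard : (0 : ℝ) < (Sec (YV n k) (pp n) (ll n)).card := by
    rw [card_Sec, card_YV n k (by omega) hkn, card_YV_compl n k (by omega) hkn]
    have hy : 1 ≤ NY n k := by
      unfold NY
      have : 0 < k * n ^ 2 := by positivity
      omega
    have hz : 1 ≤ NZ n k := by
      unfold NZ
      have h0 : 0 < n - k := by omega
      have : 0 < (n - k) * n ^ 2 := by positivity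
      omega
    have a1 := mc_pos (NY n k) (pp n) hy
    have a2 := mc_pos (NZ n k) (ll n) hz
    exact_mod_cast Nat.mul_pos a1 a2
  have hs1 : (1 : ℝ) ≤ (C.size : ℝ) := by
    have : 1 ≤ C.size := by unfold SPSPS.size; omega
    exact_mod_cast this
  refine h5 n hn5 (C.size : ℝ) hs1 (n - 2 * k) hkq ?_
  set c : ℝ := (C.size : ℝ) * max ((C.size : ℝ) * (2 * (n : ℝ) ^ (-(1 / 5 : ℝ))) ^ (Nat.sqrt n)
    * Real.exp (4 / Real.sqrt n * n)) (Real.exp (-((Real.log n * (n - 2 * k : ℕ) / (4 * n)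
      - 4 / Real.sqrt n) * n))) with hc
  set W : ℝ := 12 * Real.sqrt n * Real.exp (2 + 6 * Real.sqrt n) with hW
  have hW0 : 0 ≤ W := by positivity
  set r : ℝ := ((Mt (YV n k) (imm K n) (pp n) (ll n) (pp n - k) (ll n + (n - k))).rank : ℝ)
    with hrdef
  set s : ℝ := ((Sec (YV n k) (pp n) (ll n)).card : ℝ) with hs
  have hrank' : s ≤ W * r := hrank
  have hr' : r ≤ c * s := hr
  have : s ≤ (W * c) * s := by
    calc s ≤ W * r := hrank'
      _ ≤ W * (c * s) := mul_le_mul_of_nonneg_left hr' hW0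
      _ = (W * c) * s := by ring
  by_contra hlt
  push Not at hlt
  have : (W * c) * s < 1 * s := mul_lt_mul_of_pos_right hlt hcard
  linarith

end Crest.Agent.D5
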