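import Mathlib
import Crest.Agent.S504.Defs

/-! # S0504, module U1: matrices of products -/

set_option autoImplicit false

namespace Crest.Agent.D5

open MvPolynomial Finset

noncomputable section

variable {ι : Type*} [Fintype ι] [DecidableEq ι] {K : Type*} [Field K]

theorem Mt_add (Y : Finset ι) (f g : MvPolynomial ι K) (p l p' l' : ℕ) :
    Mt Y (f + g) p l p' l' = Mt Y f p l p' l' + Mt Y g p l p' l' := by
  ext m' m
  simp only [Mt, Matrix.of_apply, Matrix.add_apply, coeff_add]
  split_ifs <;> simp

theorem Mt_zero (Y : Finset ι) (p l p' l' : ℕ) :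
    Mt Y (0 : MvPolynomial ι K) p l p' l' = 0 := by
  ext m' m
  simp [Mt]

theorem rank_add_le' {m n : Type*} [Fintype m] [Fintype n] [DecidableEq n] (A B : Matrix m n K) :
    (A + B).rank ≤ A.rank + B.rank := by
  unfold Matrix.rank
  rw [Matrix.mulVecLin_add]
  refine (Submodule.finrank_mono (LinearMap.range_add_le _ _)).trans ?_
  exact Submodule.finrank_add_le_finrank_add_finrank _ _

theorem rank_Mt_add_le (Y : Finset ι) (f g : MvPolynomial ι K) (p l p' l' : ℕ) :
    (Mt Y (f + g) p l p' l').rank ≤ (Mt Y f p l p' l').rank + (Mt Y g p l p' l').rank := by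
  rw [Mt_add]
  classical
  exact rank_add_le' _ _

theorem dif_apply (Y : Finset ι) (m m' : ι →₀ ℕ) (i : ι) :
    dif Y m m' i = if i ∈ Y then m i - m' i else m' i - m i := rfl

/-- go from `m` by the monomial `v` -/
def mid (Y : Finset ι) (m v : ι →₀ ℕ) : ι →₀ ℕ :=
  Finsupp.equivFunOnFinite.symm (fun i => if i ∈ Y then m i - v i else m i + v i)

theorem mid_apply (Y : Finset ι) (m v : ι →₀ ℕ) (i : ι) :
    mid Y m v i = if i ∈ Y then m i - v i else m i + v i := rfl

theorem Ok.trans {Y : Finset ι} {m m' m'' : ι →₀ ℕ} (h1 : Ok Y m m'') (h2 : Ok Y m'' m') :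
    Ok Y m m' := by
  intro i
  have a1 := h1 i
  have a2 := h2 i
  split_ifs at * <;> omega

theorem dif_add_dif {Y : Finset ι} {m m' m'' : ι →₀ ℕ} (h1 : Ok Y m m'') (h2 : Ok Y m'' m') :
    dif Y m'' m' + dif Y m m'' = dif Y m m' := by
  ext i
  have a1 := h1 i
  have a2 := h2 i
  simp only [Finsupp.add_apply, dif_apply]
  split_ifs at * <;> omega

theorem dg_dif {Y : Finset ι} {m m' : ι →₀ ℕ} (h : Ok Y m m') :
    dg Y (dif Y m m') + dg Y m' = dg Y m := by
  unfold dg
  rw [← Finset.sum_add_distrib]
  apply Finset.sum_congr rfl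
  intro i hi
  have := h i
  rw [dif_apply, if_pos hi]
  rw [if_pos hi] at this
  omega

theorem dg_compl_dif {Y : Finset ι} {m m' : ι →₀ ℕ} (h : Ok Y m m') :
    dg Yᶜ (dif Y m m') + dg Yᶜ m = dg Yᶜ m' := by
  unfold dg
  rw [← Finset.sum_add_distrib]
  apply Finset.sum_congr rfl
  intro i hi
  have hi' : i ∉ Y := Finset.mem_compl.mp hi
  have := h i
  rw [dif_apply, if_neg hi']
  rw [if_neg hi'] at this
  omega

theorem dg_add (Y : Finset ι) (s t : ι →₀ ℕ) : dg Y (s + t) = dg Y s + dg Y t := by
  unfold dg
  simp [Finset.sum_add_distrib]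

theorem dg_mono (Y : Finset ι) {s t : ι →₀ ℕ} (h : s ≤ t) : dg Y s ≤ dg Y t := by
  unfold dg
  exact Finset.sum_le_sum (fun i _ => h i)

theorem BiHom.mul {Y : Finset ι} {f g : MvPolynomial ι K} {a b a' b' : ℕ} (hf : BiHom Y f a b)
    (hg : BiHom Y g a' b') : BiHom Y (f * g) (a + a') (b + b') := by
  intro t ht
  rw [coeff_mul] at ht
  obtain ⟨x, hx, hne⟩ := Finset.exists_ne_zero_of_sum_ne_zero ht
  have h1 := hf x.1 (left_ne_zero_of_mul hne)
  have h2 := hg x.2 (right_ne_zero_of_mul hne)
  have h3 : x.1 + x.2 = t := Finset.HasAntidiagonal.mem_antidiagonal.mp hx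
  rw [← h3, dg_add, dg_add, h1.1, h1.2, h2.1, h2.2]
  exact ⟨rfl, rfl⟩

theorem Mt_eq_zero (Y : Finset ι) {f : MvPolynomial ι K} {a b : ℕ} (hf : BiHom Y f a b)
    {p l p' l' : ℕ} (h : ¬ (p' + a = p ∧ l' = l + b)) : Mt Y f p l p' l' = 0 := by
  ext m' m
  simp only [Mt, Matrix.of_apply, Matrix.zero_apply]
  split_ifs with hok
  · by_contra hne
    apply h
    have h1 := hf _ hne
    have h2 := dg_dif hok
    have h3 := dg_compl_dif hok
    have hm := mem_Sec.mp m.2
    have hm' := mem_Sec.mp m'.2
    rw [h1.1, hm.1, hm'.1] at h2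
    rw [h1.2, hm.2, hm'.2] at h3
    omega
  · rfl

theorem Mt_mul (Y : Finset ι) (G H : MvPolynomial ι K) {a b : ℕ} (hH : BiHom Y H a b)
    (p l p' l' : ℕ) (hap : a ≤ p) :
    Mt Y (G * H) p l p' l' = Mt Y G (p - a) (l + b) p' l' * Mt Y H p l (p - a) (l + b) := by
  classical
  ext m' m
  obtain ⟨m', hm'⟩ := m'
  obtain ⟨m, hm⟩ := m
  rw [Matrix.mul_apply]
  simp only [Mt, Matrix.of_apply]
  have hms := mem_Sec.mp hm
  rw [Finset.sum_coe_sort (Sec Y (p - a) (l + b)) (fun m'' =>
    (if Ok Y m'' m' then coeff (dif Y m'' m') G else 0) *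
      (if Ok Y m m'' then coeff (dif Y m m'') H else 0))]
  have hL : ∑ m'' ∈ Sec Y (p - a) (l + b),
      (if Ok Y m'' m' then coeff (dif Y m'' m') G else 0) *
      (if Ok Y m m'' then coeff (dif Y m m'') H else 0)
      = ∑ m'' ∈ (Sec Y (p - a) (l + b)).filter (fun m'' => Ok Y m m'' ∧ Ok Y m'' m'),
        coeff (dif Y m'' m') G * coeff (dif Y m m'') H := by
    rw [Finset.sum_filter]
    apply Finset.sum_congr rfl
    intro m'' _
    by_cases h1 : Ok Y m m'' <;> by_cases h2 : Ok Y m'' m' <;> simp [h1, h2]
  rw [hL]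
  split_ifs with hok
  · rw [coeff_mul]
    have hR : ∑ x ∈ antidiagonal (dif Y m m'), coeff x.1 G * coeff x.2 H
        = ∑ x ∈ (antidiagonal (dif Y m m')).filter (fun x => dg Y x.2 = a ∧ dg Yᶜ x.2 = b),
          coeff x.1 G * coeff x.2 H := by
      rw [Finset.sum_filter]
      apply Finset.sum_congr rfl
      intro x _
      split_ifs with hx
      · rfl
      · have : coeff x.2 H = 0 := by
          by_contra hne
          exact hx (hH _ hne)
        rw [this, mul_zero]
    rw [hR]
    symm
    refine Finset.sum_nbij' (fun m'' => (dif Y m'' m', dif Y m m'')) (fun x => mid Y m x.2)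
      ?_ ?_ ?_ ?_ ?_
    · intro m'' hm''
      rw [Finset.mem_filter] at hm''
      obtain ⟨h0, h1, h2⟩ := hm''
      have h0' := mem_Sec.mp h0
      rw [Finset.mem_filter, Finset.HasAntidiagonal.mem_antidiagonal]
      have e1 := dg_dif h1
      have e2 := dg_compl_dif h1
      refine ⟨dif_add_dif h1 h2, ?_, ?_⟩
      · simp only
        rw [h0'.1, hms.1] at e1
        omega
      · simp only
        rw [h0'.2, hms.2] at e2
        omega
    · rintro ⟨u, v⟩ hx
      rw [Finset.mem_filter, Finset.HasAntidiagonal.mem_antidiagonal] at hx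
      obtain ⟨h0, h1, h2⟩ := hx
      simp only at h0 h1 h2
      have hi : ∀ i, u i + v i = dif Y m m' i := by
        intro i; rw [← h0]; rfl
      have hokm : Ok Y m (mid Y m v) := by
        intro i
        rw [mid_apply]
        have := hi i
        have h3 := hok i
        rw [dif_apply] at this
        split_ifs at * <;> omega
      have hokm' : Ok Y (mid Y m v) m' := by
        intro i
        rw [mid_apply]
        have := hi i
        have h3 := hok i
        rw [dif_apply] at this
        split_ifs at * <;> omega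
      have hdif : dif Y m (mid Y m v) = v := by
        ext i
        rw [dif_apply, mid_apply]
        have := hi i
        have h3 := hok i
        rw [dif_apply] at this
        split_ifs at * <;> omega
      rw [Finset.mem_filter]
      refine ⟨?_, hokm, hokm'⟩
      rw [mem_Sec]
      have e1 := dg_dif hokm
      have e2 := dg_compl_dif hokm
      rw [hdif, h1, hms.1] at e1
      rw [hdif, h2, hms.2] at e2
      constructor
      · simp only
        omega
      · simp only
        omega
    · intro m'' hm''
      rw [Finset.mem_filter] at hm''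
      obtain ⟨h0, h1, h2⟩ := hm''
      ext i
      simp only [mid_apply, dif_apply]
      have a1 := h1 i
      split_ifs at * <;> omega
    · rintro ⟨u, v⟩ hx
      rw [Finset.mem_filter, Finset.HasAntidiagonal.mem_antidiagonal] at hx
      obtain ⟨h0, h1, h2⟩ := hx
      simp only at h0 h1 h2
      have hi : ∀ i, u i + v i = dif Y m m' i := by
        intro i; rw [← h0]; rfl
      simp only [Prod.mk.injEq]
      constructor
      · ext i
        rw [dif_apply, mid_apply]
        have := hi i
        have h3 := hok i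
        rw [dif_apply] at this
        split_ifs at * <;> omega
      · ext i
        rw [dif_apply, mid_apply]
        have := hi i
        have h3 := hok i
        rw [dif_apply] at this
        split_ifs at * <;> omega
    · intro m'' _
      rfl
  · symm
    apply Finset.sum_eq_zero
    intro m'' hm''
    rw [Finset.mem_filter] at hm''
    exact absurd (hm''.2.1.trans hm''.2.2) hok

/-- key: composition through the intermediate sector -/
theorem rank_Mt_mul_le (Y : Finset ι) (G H : MvPolynomial ι K) {a b : ℕ} (hH : BiHom Y H a b)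
    (p l p' l' : ℕ) : (Mt Y (G * H) p l p' l').rank ≤ (Sec Y (p - a) (l + b)).card := by
  classical
  by_cases hap : a ≤ p
  · rw [Mt_mul Y G H hH p l p' l' hap]
    refine (Matrix.rank_mul_le_left _ _).trans ?_
    refine (Matrix.rank_le_card_width _).trans ?_
    simp
  · have : Mt Y (G * H) p l p' l' = 0 := by
      ext m' m
      simp only [Mt, Matrix.of_apply, Matrix.zero_apply]
      split_ifs with hok
      · rw [coeff_mul]
        apply Finset.sum_eq_zero
        intro x hx
        have hx' : x.1 + x.2 = dif Y m.1 m'.1 := Finset.HasAntidiagonal.mem_antidiagonal.mp hx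
        have : coeff x.2 H = 0 := by
          by_contra hne
          have h1 := hH _ hne
          have h2 : dg Y x.2 ≤ dg Y (dif Y m.1 m'.1) := by
            apply dg_mono
            rw [← hx']
            intro i
            simp
          have h3 := dg_dif hok
          have hm := mem_Sec.mp m.2
          rw [hm.1] at h3
          rw [h1.1] at h2
          omega
        rw [this, mul_zero]
      · rfl
    rw [this, Matrix.rank_zero]
    exact Nat.zero_le _

end

end Crest.Agent.D5
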