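import Mathlib
import Crest.Agent.S504.Defs
import Crest.Agent.S504.Mat
import Crest.Agent.S504.Card

/-! # S0504, module U3: calculus of costs; rank bound from the cost. -/

set_option autoImplicit false

namespace Crest.Agent.D5

open MvPolynomial Finset

noncomputable section

section U3
variable {ι : Type*} [Fintype ι] [DecidableEq ι] {K : Type*} [Field K] {Y : Finset ι} {wy wz : ℝ}

omit [Fintype ι] [DecidableEq ι] in
theorem U3_dg_zero (Y : Finset ι) : dg Y (0 : ι →₀ ℕ) = 0 := by simp [dg]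

theorem BiHom.smul {f : MvPolynomial ι K} {a b : ℕ} (hf : BiHom Y f a b) (r : K) :
    BiHom Y (r • f) a b := by
  intro t ht
  rw [coeff_smul, smul_eq_mul] at ht
  exact hf t (right_ne_zero_of_mul ht)

theorem BiHom.one : BiHom Y (1 : MvPolynomial ι K) 0 0 := by
  intro t ht
  rw [coeff_one] at ht
  have h0 : (0 : ι →₀ ℕ) = t := by
    by_contra h
    rw [if_neg h] at ht
    exact ht rfl
  rw [← h0]
  exact ⟨U3_dg_zero _, U3_dg_zero _⟩

theorem Cost.nonneg {f : MvPolynomial ι K} {c : ℝ} (h : Cost Y wy wz f c) : 0 ≤ c := by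
  induction h with
  | zero hc => exact hc
  | add hG hH hf ih => exact add_nonneg (Real.exp_pos _).le ih

theorem Cost.mono {f : MvPolynomial ι K} {c c' : ℝ} (h : Cost Y wy wz f c) (hc : c ≤ c') :
    Cost Y wy wz f c' := by
  induction h generalizing c' with
  | zero h0 => exact Cost.zero (h0.trans hc)
  | @add f G H c a' b' a b hG hH hf ih =>
    have h1 := Cost.add (wy := wy) (wz := wz) hG hH
      (ih (c' := c' - Real.exp (((wy * a' - wz * b') - (wy * a - wz * b)) / 2)) (by linarith))
    have e : Real.exp (((wy * a' - wz * b') - (wy * a - wz * b)) / 2)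
        + (c' - Real.exp (((wy * a' - wz * b') - (wy * a - wz * b)) / 2)) = c' := by ring
    rw [e] at h1
    exact h1

theorem Cost.add' {f g : MvPolynomial ι K} {c c' : ℝ} (h : Cost Y wy wz f c) (h' : Cost Y wy wz g c') :
    Cost Y wy wz (f + g) (c + c') := by
  induction h with
  | zero h0 =>
    rw [zero_add]
    exact h'.mono (by linarith)
  | add hG hH hf ih =>
    rw [add_assoc, add_assoc]
    exact Cost.add hG hH ih

theorem Cost.smul (a : K) {f : MvPolynomial ι K} {c : ℝ} (h : Cost Y wy wz f c) :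
    Cost Y wy wz (a • f) c := by
  induction h with
  | zero h0 =>
    rw [smul_zero]
    exact Cost.zero h0
  | add hG hH hf ih =>
    rw [smul_add, ← smul_mul_assoc]
    exact Cost.add (hG.smul a) hH ih

theorem Cost.one : Cost Y wy wz (1 : MvPolynomial ι K) 1 := by
  have h := Cost.add (wy := wy) (wz := wz) (BiHom.one (Y := Y) (K := K)) (BiHom.one (Y := Y) (K := K))
    (Cost.zero le_rfl)
  have e1 : (1 : MvPolynomial ι K) * 1 + 0 = 1 := by ring
  have e2 : Real.exp (((wy * (0 : ℕ) - wz * (0 : ℕ)) - (wy * (0 : ℕ) - wz * (0 : ℕ))) / 2) + 0 = 1 := by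
    simp
  rw [e1, e2] at h
  exact h

theorem Cost.mul_left {f G H : MvPolynomial ι K} {c : ℝ} {a' b' a b : ℕ} (hG : BiHom Y G a' b')
    (hH : BiHom Y H a b) (h : Cost Y wy wz f c) :
    Cost Y wy wz (G * H * f) (Real.exp (((wy * a' - wz * b') - (wy * a - wz * b)) / 2) * c) := by
  induction h with
  | zero h0 =>
    rw [mul_zero]
    exact Cost.zero (mul_nonneg (Real.exp_pos _).le h0)
  | @add f G₁ H₁ c a₁' b₁' a₁ b₁ hG₁ hH₁ hf ih =>
    have h1 := Cost.add (wy := wy) (wz := wz) (hG.mul hG₁) (hH.mul hH₁) ih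
    have e1 : G * G₁ * (H * H₁) + G * H * f = G * H * (G₁ * H₁ + f) := by ring
    have e2 : Real.exp (((wy * ((a' + a₁' : ℕ) : ℝ) - wz * ((b' + b₁' : ℕ) : ℝ))
          - (wy * ((a + a₁ : ℕ) : ℝ) - wz * ((b + b₁ : ℕ) : ℝ))) / 2)
        + Real.exp (((wy * a' - wz * b') - (wy * a - wz * b)) / 2) * c
        = Real.exp (((wy * a' - wz * b') - (wy * a - wz * b)) / 2)
          * (Real.exp (((wy * a₁' - wz * b₁') - (wy * a₁ - wz * b₁)) / 2) + c) := by
      rw [mul_add, ← Real.exp_add]
      congr 2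
      push_cast
      ring
    rw [e1, e2] at h1
    exact h1

theorem Cost.mul {f g : MvPolynomial ι K} {c c' : ℝ} (h : Cost Y wy wz f c) (h' : Cost Y wy wz g c') :
    Cost Y wy wz (f * g) (c * c') := by
  induction h with
  | zero h0 =>
    rw [zero_mul]
    exact Cost.zero (mul_nonneg h0 h'.nonneg)
  | add hG hH hf ih =>
    rw [add_mul, add_mul]
    exact (h'.mul_left hG hH).add' ih

theorem Cost.sum {α : Type*} (s : Finset α) (f : α → MvPolynomial ι K) (c : α → ℝ)
    (h : ∀ i ∈ s, Cost Y wy wz (f i) (c i)) : Cost Y wy wz (∑ i ∈ s, f i) (∑ i ∈ s, c i) := by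
  classical
  induction s using Finset.induction_on with
  | empty => simpa using Cost.zero (Y := Y) (wy := wy) (wz := wz) (K := K) le_rfl
  | insert a s ha ih =>
    rw [Finset.sum_insert ha, Finset.sum_insert ha]
    exact (h a (Finset.mem_insert_self a s)).add'
      (ih (fun i hi => h i (Finset.mem_insert_of_mem hi)))

theorem Cost.prod {α : Type*} (s : Multiset α) (f : α → MvPolynomial ι K) (c : α → ℝ)
    (h : ∀ i ∈ s, Cost Y wy wz (f i) (c i)) : Cost Y wy wz (s.map f).prod (s.map c).prod := by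
  induction s using Multiset.induction_on with
  | empty => simpa using Cost.one (Y := Y) (wy := wy) (wz := wz) (K := K)
  | cons a s ih =>
    rw [Multiset.map_cons, Multiset.map_cons, Multiset.prod_cons, Multiset.prod_cons]
    exact (h a (Multiset.mem_cons_self a s)).mul
      (ih (fun i hi => h i (Multiset.mem_cons_of_mem hi)))

theorem dg_of_hom {f : MvPolynomial ι K} {e : ℕ} (hf : f.IsHomogeneous e) {m : ι →₀ ℕ}
    (hm : coeff m f ≠ 0) : dg Y m + dg Yᶜ m = e := by
  have hdeg : Finsupp.weight (fun _ => (1 : ℕ)) m = e := hf hm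
  have h1 : m.degree = e := by
    rw [← hdeg]
    exact congrFun (congrArg _ (Finsupp.degree_eq_weight_one (R := ℕ) (σ := ι))) m
  have h : ∑ i, m i = dg Y m + dg Yᶜ m := by
    unfold dg; rw [Finset.sum_add_sum_compl]
  rw [← h, ← h1, Finsupp.degree_eq_sum]

/-- the part of `Y`-degree `κ` -/
def partY (Y : Finset ι) (f : MvPolynomial ι K) (κ : ℕ) : MvPolynomial ι K :=
  ∑ m ∈ f.support.filter (fun m => dg Y m = κ), monomial m (coeff m f)

theorem partY_biHom {f : MvPolynomial ι K} {e : ℕ} (hf : f.IsHomogeneous e) {κ : ℕ}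
    (hκ : κ ≤ e) : BiHom Y (partY Y f κ) κ (e - κ) := by
  intro t ht
  unfold partY at ht
  rw [coeff_sum] at ht
  obtain ⟨m, hm, hne⟩ := Finset.exists_ne_zero_of_sum_ne_zero ht
  rw [coeff_monomial] at hne
  have hmt : m = t := by
    by_contra h
    rw [if_neg h] at hne
    exact hne rfl
  subst hmt
  rw [Finset.mem_filter, MvPolynomial.mem_support_iff] at hm
  have hdeg := dg_of_hom (Y := Y) hf hm.1
  exact ⟨hm.2, by omega⟩

theorem sum_partY {f : MvPolynomial ι K} {e : ℕ} (hf : f.IsHomogeneous e) :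
    f = ∑ κ ∈ Finset.range (e + 1), partY Y f κ := by
  unfold partY
  rw [Finset.sum_fiberwise_of_maps_to (g := fun m => dg Y m)
    (f := fun m => monomial m (coeff m f))]
  · exact f.as_sum
  · intro m hm
    rw [MvPolynomial.mem_support_iff] at hm
    have := dg_of_hom (Y := Y) hf hm
    rw [Finset.mem_range]
    omega

theorem Cost.of_hom {f : MvPolynomial ι K} {e : ℕ} (hf : f.IsHomogeneous e) :
    Cost Y wy wz f (SS wy wz e) := by
  rw [sum_partY (Y := Y) hf]
  unfold SS
  refine Cost.sum _ _ _ (fun κ hκ => ?_)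
  have hκe : κ ≤ e := Nat.lt_succ_iff.mp (Finset.mem_range.mp hκ)
  have hb := partY_biHom (Y := Y) hf hκe
  have hcast : ((e - κ : ℕ) : ℝ) = (e : ℝ) - κ := Nat.cast_sub hκe
  rcases le_total 0 (wy * κ - wz * ((e : ℝ) - κ)) with h0 | h0
  · have h := Cost.add (wy := wy) (wz := wz) (BiHom.one (Y := Y) (K := K)) hb (Cost.zero le_rfl)
    rw [one_mul, add_zero, add_zero, hcast] at h
    rw [abs_of_nonneg h0]
    convert h using 2
    simp
  · have h := Cost.add (wy := wy) (wz := wz) hb (BiHom.one (Y := Y) (K := K)) (Cost.zero le_rfl)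
    rw [mul_one, add_zero, add_zero, hcast] at h
    rw [abs_of_nonpos h0]
    convert h using 2
    simp

theorem Cost.rank_le {f : MvPolynomial ι K} {c : ℝ} (h : Cost Y wy wz f c) (p' l k l0 : ℕ)
    (hbal : wy * k = wz * l0)
    (H1 : ∀ a ≤ p' + k, (Nat.multichoose Y.card (p' + k - a) : ℝ)
      ≤ Real.exp (-(wy * a)) * Nat.multichoose Y.card (p' + k))
    (H2 : ∀ b : ℕ, (Nat.multichoose Yᶜ.card (l + b) : ℝ)
      ≤ Real.exp (wz * b) * Nat.multichoose Yᶜ.card l) :
    ((Mt Y f (p' + k) l p' (l + l0)).rank : ℝ) ≤ c * (Sec Y (p' + k) l).card := by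
  induction h with
  | @zero c h0 =>
    rw [Mt_zero, Matrix.rank_zero]
    simpa using mul_nonneg h0 (Nat.cast_nonneg _)
  | @add f G H c a' b' a b hG hH hf ih =>
    have h1 := rank_Mt_add_le Y (G * H) f (p' + k) l p' (l + l0)
    have h2 : ((Mt Y (G * H) (p' + k) l p' (l + l0)).rank : ℝ)
        ≤ Real.exp (((wy * a' - wz * b') - (wy * a - wz * b)) / 2) * (Sec Y (p' + k) l).card := by
      by_cases hd : p' + (a' + a) = p' + k ∧ l + l0 = l + (b' + b)
      · obtain ⟨hd1, hd2⟩ := hd
        have hk : k = a' + a := by omega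
        have hl0 : l0 = b' + b := by omega
        have h3 := rank_Mt_mul_le Y G H hH (p' + k) l p' (l + l0)
        rw [card_Sec] at h3
        have h4 : ((Mt Y (G * H) (p' + k) l p' (l + l0)).rank : ℝ)
            ≤ (Nat.multichoose Y.card (p' + k - a) : ℝ) * Nat.multichoose Yᶜ.card (l + b) := by
          exact_mod_cast h3
        refine h4.trans ?_
        have h5 := H1 a (by omega)
        have h6 := H2 b
        have h7 : (Nat.multichoose Y.card (p' + k - a) : ℝ) * Nat.multichoose Yᶜ.card (l + b)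
            ≤ (Real.exp (-(wy * a)) * Nat.multichoose Y.card (p' + k))
              * (Real.exp (wz * b) * Nat.multichoose Yᶜ.card l) :=
          mul_le_mul h5 h6 (Nat.cast_nonneg _) (mul_nonneg (Real.exp_pos _).le (Nat.cast_nonneg _))
        refine h7.trans (le_of_eq ?_)
        rw [card_Sec]
        push_cast
        have hb' : wy * ((a' : ℝ) + a) = wz * ((b' : ℝ) + b) := by
          rw [hk, hl0] at hbal
          push_cast at hbal
          exact hbal
        have e : ((wy * a' - wz * b') - (wy * a - wz * b)) / 2 = -(wy * a) + wz * b := by linarith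
        rw [e, Real.exp_add]
        ring
      · rw [Mt_eq_zero Y (hG.mul hH) hd, Matrix.rank_zero]
        simpa using mul_nonneg (Real.exp_pos _).le (Nat.cast_nonneg _)
    have h3 : ((Mt Y (G * H + f) (p' + k) l p' (l + l0)).rank : ℝ)
        ≤ ((Mt Y (G * H) (p' + k) l p' (l + l0)).rank : ℝ)
          + ((Mt Y f (p' + k) l p' (l + l0)).rank : ℝ) := by exact_mod_cast h1
    calc ((Mt Y (G * H + f) (p' + k) l p' (l + l0)).rank : ℝ) ≤ _ := h3
      _ ≤ _ := add_le_add h2 ih
      _ = _ := by ring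

end U3

end

end Crest.Agent.D5
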