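import Mathlib
import Crest.Agent.S504.Defs
import Crest.Agent.S504.SSBound1
import Crest.Agent.S504.CostLem

/-! S0504, module U5: homogeneity and the cost of a homogeneous depth-five circuit. -/

set_option autoImplicit false

namespace Crest.Agent.D5

open MvPolynomial Finset Crest.ArithCircuit

noncomputable section

section U5
universe u v
variable {ι : Type*} [Fintype ι] [DecidableEq ι] {K : Type*} [Field K]
  {L B P S R : Type*} [Fintype L] [Fintype B] [Fintype P] [Fintype S] [Fintype R]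

omit [Fintype ι] [DecidableEq ι] in
theorem isHomogeneous_multiset_prod {α : Type*} (s : Multiset α) (f : α → MvPolynomial ι K)
    (d : α → ℕ) (h : ∀ i ∈ s, (f i).IsHomogeneous (d i)) :
    ((s.map f).prod).IsHomogeneous (s.map d).sum := by
  induction s using Multiset.induction_on with
  | empty => simpa using isHomogeneous_one ι K
  | cons a s ih =>
    rw [Multiset.map_cons, Multiset.map_cons, Multiset.prod_cons, Multiset.sum_cons]
    exact (h a (Multiset.mem_cons_self a s)).mul
      (ih (fun i hi => h i (Multiset.mem_cons_of_mem hi)))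

omit [Fintype ι] [DecidableEq ι] in
theorem isHomogeneous_sum_smul {α : Type*} (s : Finset α) (a : α → K) (f : α → MvPolynomial ι K)
    (d : ℕ) (h : ∀ i ∈ s, (f i).IsHomogeneous d) :
    (∑ i ∈ s, a i • f i).IsHomogeneous d :=
  IsHomogeneous.sum _ _ _ (fun i hi => (homogeneousSubmodule ι K d).smul_mem (a i) (h i hi))

omit [Fintype ι] [DecidableEq ι] [Fintype L] [Fintype B] [Fintype P] [Fintype S] [Fintype R] in
theorem leafVal_isHomogeneous (C : SPSPS K ι L B P S R) (l : L) :
    (C.leafVal l).IsHomogeneous (C.leafDeg l) := by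
  unfold SPSPS.leafVal SPSPS.leafDeg
  rcases C.leaf l with i | c
  · exact isHomogeneous_X _ _
  · exact isHomogeneous_C _ _

omit [Fintype ι] [DecidableEq ι] [Fintype L] [Fintype B] [Fintype P] [Fintype S] [Fintype R] in
theorem valB_isHomogeneous (C : SPSPS K ι L B P S R) (hC : C.IsHomogeneous) (b : B) :
    (C.valB b).IsHomogeneous (C.degB b) := by
  unfold SPSPS.valB
  refine isHomogeneous_sum_smul _ _ _ _ (fun l hl => ?_)
  have := leafVal_isHomogeneous C l
  rwa [hC.1 b l hl] at this

omit [Fintype ι] [DecidableEq ι] [Fintype L] [Fintype B] [Fintype P] [Fintype S] [Fintype R] in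
theorem valP_isHomogeneous (C : SPSPS K ι L B P S R) (hC : C.IsHomogeneous) (p : P) :
    (C.valP p).IsHomogeneous (C.degP p) :=
  isHomogeneous_multiset_prod _ _ _ (fun b _ => valB_isHomogeneous C hC b)

omit [Fintype ι] [DecidableEq ι] [Fintype L] [Fintype B] [Fintype P] [Fintype S] [Fintype R] in
theorem valS_isHomogeneous (C : SPSPS K ι L B P S R) (hC : C.IsHomogeneous) (s : S) :
    (C.valS s).IsHomogeneous (C.degS s) := by
  unfold SPSPS.valS
  refine isHomogeneous_sum_smul _ _ _ _ (fun p hp => ?_)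
  have := valP_isHomogeneous C hC p
  rwa [hC.2.1 s p hp] at this

omit [Fintype ι] [DecidableEq ι] [Fintype L] [Fintype B] [Fintype P] [Fintype S] [Fintype R] in
theorem valR_isHomogeneous (C : SPSPS K ι L B P S R) (hC : C.IsHomogeneous) (r : R) :
    (C.valR r).IsHomogeneous (C.degR r) :=
  isHomogeneous_multiset_prod _ _ _ (fun b _ => valS_isHomogeneous C hC b)

theorem output_isHomogeneous (C : SPSPS K ι L B P S R) (hC : C.IsHomogeneous) :
    C.output.IsHomogeneous C.degOut := by
  unfold SPSPS.output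
  refine isHomogeneous_sum_smul _ _ _ _ (fun r hr => ?_)
  have := valR_isHomogeneous C hC r
  rwa [hC.2.2 r hr] at this

theorem degB_le_one (C : SPSPS K ι L B P S R) (b : B) : C.degB b ≤ 1 := by
  unfold SPSPS.degB
  refine Finset.sup_le (fun l _ => ?_)
  unfold SPSPS.leafDeg
  rcases C.leaf l with i | c <;> simp

theorem SS_nonneg (wy wz : ℝ) (e : ℕ) : 0 ≤ SS wy wz e := by
  unfold SS
  positivity

/-- a bottom sum gate costs at most `A1 ^ degree` -/
theorem cost_valB (C : SPSPS K ι L B P S R) (hC : C.IsHomogeneous)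
    (Y : Finset ι) (wy wz A1 : ℝ) (hA0 : SS wy wz 1 ≤ A1) (b : B) :
    Cost Y wy wz (C.valB b) (A1 ^ (C.degB b)) := by
  have h := Cost.of_hom (Y := Y) (wy := wy) (wz := wz) (valB_isHomogeneous C hC b)
  have h1 := degB_le_one C b
  refine h.mono ?_
  interval_cases hd : C.degB b
  · rw [SS_zero]; simp
  · simpa using hA0

theorem map_pow_prod {α : Type*} (s : Multiset α) (A : ℝ) (d : α → ℕ) :
    (s.map (fun b => A ^ (d b))).prod = A ^ (s.map d).sum := by
  induction s using Multiset.induction_on with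
  | empty => simp
  | cons a s ih =>
    rw [Multiset.map_cons, Multiset.map_cons, Multiset.prod_cons, Multiset.sum_cons, ih, pow_add]

theorem map_exp_prod {α : Type*} (s : Multiset α) (E : ℝ) (d : α → ℕ) :
    (s.map (fun b => Real.exp (E * (d b : ℝ)))).prod = Real.exp (E * (((s.map d).sum : ℕ) : ℝ)) := by
  induction s using Multiset.induction_on with
  | empty => simp
  | cons a s ih =>
    rw [Multiset.map_cons, Multiset.map_cons, Multiset.prod_cons, Multiset.sum_cons, ih,
      ← Real.exp_add]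
    congr 1
    push_cast
    ring

theorem cost_valP (C : SPSPS K ι L B P S R) (hC : C.IsHomogeneous)
    (Y : Finset ι) (wy wz A1 : ℝ) (hA0 : SS wy wz 1 ≤ A1) (p : P) :
    Cost Y wy wz (C.valP p) (A1 ^ (C.degP p)) := by
  have h := Cost.prod (Y := Y) (wy := wy) (wz := wz) (C.inP p) C.valB (fun b => A1 ^ (C.degB b))
    (fun b _ => cost_valB C hC Y wy wz A1 hA0 b)
  rw [map_pow_prod] at h
  exact h

/-- a middle sum gate of degree at least `q` -/
theorem cost_valS_big (C : SPSPS K ι L B P S R) (hC : C.IsHomogeneous)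
    (Y : Finset ι) (wy wz A1 : ℝ) (hA0 : SS wy wz 1 ≤ A1) (hA1 : A1 ≤ 1) (q : ℕ) (s : S)
    (hs : q ≤ C.degS s) :
    Cost Y wy wz (C.valS s) ((Fintype.card P : ℝ) * A1 ^ q) := by
  have hA : 0 ≤ A1 := (SS_nonneg wy wz 1).trans hA0
  have h := Cost.sum (Y := Y) (wy := wy) (wz := wz) (C.inS s)
    (fun p => C.coefS s p • C.valP p) (fun _ => A1 ^ q) (fun p hp => ?_)
  · refine Cost.mono h ?_
    rw [Finset.sum_const, nsmul_eq_mul]
    have : ((C.inS s).card : ℝ) ≤ Fintype.card P := by exact_mod_cast Finset.card_le_univ _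
    exact mul_le_mul_of_nonneg_right this (pow_nonneg hA q)
  · refine Cost.smul _ ((cost_valP C hC Y wy wz A1 hA0 p).mono ?_)
    rw [hC.2.1 s p hp]
    exact pow_le_pow_of_le_one hA hA1 hs

theorem cost_valR (C : SPSPS K ι L B P S R) (hC : C.IsHomogeneous) (n q : ℕ) (r : R)
    (hr : C.degR r = n)
    (Y : Finset ι) (wy wz A1 E1 E2 : ℝ) (hA0 : SS wy wz 1 ≤ A1) (hA1 : A1 ≤ 1) (hE1 : 0 ≤ E1)
    (hbig : ∀ e : ℕ, SS wy wz e ≤ Real.exp (E1 * e))
    (hsmall : ∀ e < q, SS wy wz e ≤ Real.exp (-(E2 * e))) :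
    Cost Y wy wz (C.valR r)
      (max ((C.size : ℝ) * A1 ^ q * Real.exp (E1 * n)) (Real.exp (-(E2 * n)))) := by
  have hA : 0 ≤ A1 := (SS_nonneg wy wz 1).trans hA0
  by_cases hall : ∀ s ∈ C.inR r, C.degS s < q
  · -- all middle sum gates are small
    have h := Cost.prod (Y := Y) (wy := wy) (wz := wz) (C.inR r) C.valS
      (fun s => Real.exp ((-E2) * (C.degS s : ℝ))) (fun s hs => by
        refine (Cost.of_hom (valS_isHomogeneous C hC s)).mono ?_
        have := hsmall _ (hall s hs)
        rwa [← neg_mul] at this)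
    rw [map_exp_prod] at h
    refine Cost.mono h (le_trans (le_of_eq ?_) (le_max_right _ _))
    have h1 : (((C.inR r).map C.degS).sum : ℕ) = n := hr
    rw [h1, neg_mul]
  · push Not at hall
    obtain ⟨s0, hs0, hq⟩ := hall
    obtain ⟨t, ht⟩ := Multiset.exists_cons_of_mem hs0
    have hdeg : C.degS s0 + (t.map C.degS).sum = n := by
      rw [← hr]
      unfold SPSPS.degR
      rw [ht, Multiset.map_cons, Multiset.sum_cons]
    have hval : C.valR r = C.valS s0 * (t.map C.valS).prod := by
      unfold SPSPS.valR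
      rw [ht, Multiset.map_cons, Multiset.prod_cons]
    have h := Cost.prod (Y := Y) (wy := wy) (wz := wz) t C.valS
      (fun s => Real.exp (E1 * (C.degS s : ℝ))) (fun s _ =>
        (Cost.of_hom (valS_isHomogeneous C hC s)).mono (hbig _))
    rw [map_exp_prod] at h
    have h2 := (cost_valS_big C hC Y wy wz A1 hA0 hA1 q s0 hq).mul h
    rw [hval]
    refine Cost.mono h2 (le_trans ?_ (le_max_left _ _))
    have hP : (Fintype.card P : ℝ) ≤ (C.size : ℝ) := by
      have : Fintype.card P ≤ C.size := by unfold SPSPS.size; omega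
      exact_mod_cast this
    have hsum : (((t.map C.degS).sum : ℕ) : ℝ) ≤ n := by
      have : (t.map C.degS).sum ≤ n := by omega
      exact_mod_cast this
    have he : Real.exp (E1 * (((t.map C.degS).sum : ℕ) : ℝ)) ≤ Real.exp (E1 * n) :=
      Real.exp_le_exp.mpr (mul_le_mul_of_nonneg_left hsum hE1)
    have hpow : 0 ≤ A1 ^ q := pow_nonneg hA q
    refine mul_le_mul (mul_le_mul_of_nonneg_right hP hpow) he (Real.exp_pos _).le ?_
    positivity

theorem circuit_cost (C : SPSPS K ι L B P S R) (hC : C.IsHomogeneous) (n q : ℕ) (hn : C.degOut = n)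
    (Y : Finset ι) (wy wz A1 E1 E2 : ℝ) (hA0 : SS wy wz 1 ≤ A1) (hA1 : A1 ≤ 1) (hE1 : 0 ≤ E1)
    (hbig : ∀ e : ℕ, SS wy wz e ≤ Real.exp (E1 * e))
    (hsmall : ∀ e < q, SS wy wz e ≤ Real.exp (-(E2 * e))) :
    Cost Y wy wz C.output
      ((C.size : ℝ) * max ((C.size : ℝ) * A1 ^ q * Real.exp (E1 * n)) (Real.exp (-(E2 * n)))) := by
  have h := Cost.sum (Y := Y) (wy := wy) (wz := wz) C.inOut
    (fun r => C.coefOut r • C.valR r)
    (fun _ => max ((C.size : ℝ) * A1 ^ q * Real.exp (E1 * n)) (Real.exp (-(E2 * n))))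
    (fun r hr => Cost.smul _ (cost_valR C hC n q r (by rw [hC.2.2 r hr, hn]) Y wy wz A1 E1 E2
      hA0 hA1 hE1 hbig hsmall))
  refine Cost.mono h ?_
  rw [Finset.sum_const, nsmul_eq_mul]
  have hR : ((C.inOut).card : ℝ) ≤ (C.size : ℝ) := by
    have h1 : (C.inOut).card ≤ Fintype.card R := Finset.card_le_univ _
    have : (C.inOut).card ≤ C.size := by unfold SPSPS.size; omega
    exact_mod_cast this
  refine mul_le_mul_of_nonneg_right hR (le_trans (Real.exp_pos _).le (le_max_right _ _))

end U5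

end

end Crest.Agent.D5
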