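import Mathlib
import Crest.Agent.S504.Defs

/-! # S0504 L2, first half: path expansion of the iterated matrix product -/

set_option autoImplicit false

namespace Crest.Agent.D5

open MvPolynomial Finset Crest.ArithCircuit

noncomputable section

theorem list_ofFn_prod_apply {A : Type*} [CommSemiring A] {S : Type*} [Fintype S] [DecidableEq S]
    (n : ℕ) (M : Fin n → Matrix S S A) (s t : S) :
    (List.ofFn M).prod s t
      = ∑ a ∈ (Finset.univ : Finset (Fin (n + 1) → S)).filter (fun a => a 0 = s ∧ a (Fin.last n) = t),
          ∏ j : Fin n, M j (a j.castSucc) (a j.succ) := by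
  rw [Finset.sum_filter]
  revert M s t
  induction n with
  | zero =>
    intro M i j
    simp only [List.ofFn_zero, List.prod_nil, Finset.univ_eq_empty, Finset.prod_empty]
    rw [← (Equiv.funUnique (Fin 1) S).symm.sum_comp]
    simp only [Equiv.funUnique_symm_apply, Matrix.one_apply]
    have : ∀ x : S, (uniqueElim x : Fin 1 → S) = fun _ => x := by
      intro x; funext y; exact (Subsingleton.elim y default) ▸ rfl
    simp only [this]
    by_cases hij : i = j
    · subst hij
      simp
    · rw [if_neg hij]
      symm
      apply Finset.sum_eq_zero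
      intro x _
      rw [if_neg]
      rintro ⟨h1, h2⟩
      exact hij (h1.symm.trans h2)
  | succ ℓ ih =>
    intro M i j
    rw [List.ofFn_succ, List.prod_cons, Matrix.mul_apply]
    rw [← (Fin.consEquiv (fun _ => S)).sum_comp, Fintype.sum_prod_type]
    simp only [Fin.consEquiv_apply, Fin.cons_zero]
    have key : ∀ x, M 0 i x * (List.ofFn fun i => M i.succ).prod x j = 
          ∑ p : Fin (ℓ + 1) → S, if p 0 = x ∧ p (Fin.last ℓ) = j then 
            M 0 i x * ∏ k : Fin ℓ, M k.succ (p k.castSucc) (p k.succ) else 0 := by
      intro x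
      rw [ih, Finset.mul_sum]
      apply Finset.sum_congr rfl
      intro p _
      split_ifs <;> simp
    rw [Finset.sum_congr rfl (fun x _ => key x), Finset.sum_comm]
    symm
    rw [Finset.sum_eq_single i]
    · apply Finset.sum_congr rfl
      intro p _
      symm
      rw [Finset.sum_eq_single (p 0)]
      · have e1 : (Fin.last (ℓ + 1)) = (Fin.last ℓ).succ := rfl
        rw [e1, Fin.cons_succ]
        simp only [true_and]
        split_ifs with h
        · rw [Fin.prod_univ_succ]
          congr 1
        · rfl
      · intro x _ hx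
        rw [if_neg]
        rintro ⟨h1, _⟩
        exact hx h1.symm
      · intro h; exact absurd (Finset.mem_univ _) h
    · intro x _ hx
      apply Finset.sum_eq_zero
      intro p _
      rw [if_neg]
      rintro ⟨h1, _⟩
      exact hx h1
    · intro h; exact absurd (Finset.mem_univ _) h


theorem imm_eq (K : Type*) [CommSemiring K] (N : ℕ) :
    imm K (N + 1) = ∑ a ∈ Pth N, monomial (pmon a) (1 : K) := by
  change (List.ofFn (varMatrix K (N + 1))).prod 0 0 = _
  rw [list_ofFn_prod_apply]
  unfold Pth
  apply Finset.sum_congr rfl
  intro a _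
  unfold pmon
  rw [monomial_sum_one]
  rfl

theorem card_Pth (N : ℕ) : (Pth N).card = (N + 1) ^ N := by
  have h : (Pth N).card = (Finset.univ : Finset (Fin N → Fin (N + 1))).card := by
    refine Finset.card_bij' (fun a _ => fun m : Fin N => a m.succ.castSucc)
      (fun q _ => (Fin.cons 0 (Fin.snoc q 0 : Fin (N + 1) → Fin (N + 1)) : Fin (N + 2) → Fin (N + 1)))
      ?_ ?_ ?_ ?_
    · intro a _
      exact Finset.mem_univ _
    · intro q _
      unfold Pth
      rw [Finset.mem_filter]
      refine ⟨Finset.mem_univ _, rfl, ?_⟩
      have e1 : (Fin.last (N + 1)) = (Fin.last N).succ := rfl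
      rw [e1, Fin.cons_succ, Fin.snoc_last]
    · intro a ha
      unfold Pth at ha
      rw [Finset.mem_filter] at ha
      funext m
      refine Fin.cases ?_ (fun m => ?_) m
      · rw [Fin.cons_zero]; exact ha.2.1.symm
      · rw [Fin.cons_succ]
        refine Fin.lastCases ?_ (fun m => ?_) m
        · rw [Fin.snoc_last]; exact ha.2.2.symm
        · rw [Fin.snoc_castSucc, Fin.succ_castSucc]
    · intro q _
      funext m
      simp only [← Fin.succ_castSucc, Fin.cons_succ, Fin.snoc_castSucc]
  rw [h]
  simp

theorem imm_ne_zero (K : Type*) [Field K] (N : ℕ) : imm K (N + 1) ≠ 0 := by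
  intro h
  have h1 : eval (fun v : Fin (N + 1) × Fin (N + 1) × Fin (N + 1) =>
      if v.2 = (0, 0) then (1 : K) else 0) (imm K (N + 1)) = 1 := by
    rw [imm_eq, map_sum, Finset.sum_eq_single (fun _ => 0)]
    · unfold pmon
      rw [monomial_sum_one, map_prod]
      apply Finset.prod_eq_one
      intro j _
      rw [eval_monomial]
      simp
    · intro a ha hne
      unfold Pth at ha
      rw [Finset.mem_filter] at ha
      have hex : ∃ j : Fin (N + 1), a j.castSucc ≠ 0 := by
        by_contra hcon
        push Not at hcon
        apply hne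
        funext m
        refine Fin.lastCases ?_ (fun m => ?_) m
        · exact ha.2.2
        · exact hcon m
      obtain ⟨j, hj⟩ := hex
      unfold pmon
      rw [monomial_sum_one, map_prod]
      apply Finset.prod_eq_zero (Finset.mem_univ j)
      rw [eval_monomial]
      simp [hj]
    · intro hcon
      exfalso
      apply hcon
      unfold Pth
      simp
  rw [h] at h1
  simp at h1

theorem degree_pmon {n : ℕ} (a : Fin (n + 1) → Fin n) : (pmon a).degree = n := by
  unfold pmon
  rw [map_sum]
  simp [Finsupp.degree_single]

theorem imm_isHomogeneous (K : Type*) [Field K] (N : ℕ) : (imm K (N + 1)).IsHomogeneous (N + 1) := by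
  rw [imm_eq]
  apply MvPolynomial.IsHomogeneous.sum
  intro a _
  exact isHomogeneous_monomial _ (degree_pmon a)

end

end Crest.Agent.D5
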